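import Crest.Agent.R163.Q3.D.P8G.S0
import Crest.Agent.R163.Q3.D.P8G.H

set_option autoImplicit false
set_option maxRecDepth 100000
set_option linter.all false
set_option Elab.async false

namespace Crest.Agent.R163.P8G

theorem p0_4_5 : Ok par f4 (((((((Box3.unit.l 1).r 0).l 1).r 0).l 1).l 1).r 0) (selB 0 (selB 0 (selB 0 C0 127066327839807649082762571294326593265165711529938506709219326957958083453617474556133375) 4839835493369361251778560) 302231454694993852082175) :=
  Ok.run hw hf4 ⟨600,25,25,1,10⟩ 59
    (.part 450741 (.chk false 0) (.split 1 (.split 0 (.part 999 (.chk false 0) (.split 1 (.split 0 (.chk false 0) (.chk false 0)) (.chk false 0))) (.part 1562 (.chk false 0) (.split 1 (.split 0 (.chk false 0) (.part 46 (.chk false 0) (.split 1 (.split 0 (.chk false 0) (.chk false 0)) (.chk false 0)))) (.chk false 0)))) (.chk false 0)))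
    (by decide +kernel)

theorem p0_4_6 : Ok par f4 ((((((Box3.unit.l 1).r 0).l 1).r 0).l 1).r 1) (selB 0 (selB 0 (selB 0 C0 127066327839807649082762571294326593265165711529938506709219326957958083453617474556133375) 4839835493369361251778560) 302231454694993852082175) :=
  Ok.run hw hf4 ⟨425,25,25,1,10⟩ 59
    (.chk false 0)
    (by decide +kernel)

theorem p0_4_7 : Ok par f4 (((((Box3.unit.l 1).r 0).l 1).r 0).r 1) (selB 0 (selB 0 (selB 0 C0 127066327839807649082762571294326593265165711529938506709219326957958083453617474556133375) 4839835493369361251778560) 302231454694993852082175) :=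
  Ok.run hw hf4 ⟨397,25,25,1,10⟩ 59
    (.chk false 0)
    (by decide +kernel)

theorem p0_4_8 : Ok par f4 ((((Box3.unit.l 1).r 0).l 1).r 0) (selB 1 (selB 0 (selB 0 C0 127066327839807649082762571294326593265165711529938506709219326957958083453617474556133375) 4839835493369361251778560) 302231454694993852082175) :=
  Ok.run hw hf4 ⟨375,25,25,1,10⟩ 59
    (.chk false 0)
    (by decide +kernel)

theorem p0_4_9 : Ok par f4 (((Box3.unit.l 1).r 0).r 1) (selB 0 (selB 0 C0 127066327839807649082762571294326593265165711529938506709219326957958083453617474556133375) 4839835493369361251778560) :=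
  Ok.run hw hf4 ⟨334,25,25,1,10⟩ 59
    (.chk false 0)
    (by decide +kernel)

theorem p0_4_10 : Ok par f4 ((Box3.unit.l 1).r 0) (selB 1 (selB 0 C0 127066327839807649082762571294326593265165711529938506709219326957958083453617474556133375) 4839835493369361251778560) :=
  Ok.run hw hf4 ⟨317,25,25,1,10⟩ 59
    (.chk false 0)
    (by decide +kernel)

theorem p0_4_11 : Ok par f4 ((Box3.unit.l 1).l 0) (selB 0 C0 127066327839807649082762571294326593265165711529938506709219326957958083453617474556133375) :=
  Ok.run hw hf4 ⟨483,25,25,1,10⟩ 59
    (.part 4946921502239825232415162367 (.chk false 0) (.split 0 (.chk false 0) (.part 8 (.chk false 0) (.split 1 (.split 0 (.chk false 0) (.part 17 (.chk false 0) (.split 1 (.split 0 (.chk false 0) (.part 5 (.chk false 0) (.split 1 (.split 0 (.chk false 0) (.chk false 0)) (.chk false 0)))) (.chk false 0)))) (.chk false 0)))))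
    (by decide +kernel)

theorem p0_4_12 : Ok par f4 (Box3.unit.r 1) (selB 0 C0 127066327839807649082762571294326593265165711529938506709219326957958083453617474556133375) :=
  Ok.run hw hf4 ⟨279,25,25,1,10⟩ 59
    (.chk false 0)
    (by decide +kernel)

theorem p0_4_13 : Ok par f4 Box3.unit (selB 1 C0 127066327839807649082762571294326593265165711529938506709219326957958083453617474556133375) :=
  Ok.run hw hf4 ⟨241,25,25,1,10⟩ 59
    (.chk false 0)
    (by decide +kernel)

theorem p0_5_0 : Ok par f5 (((((Box3.unit.l 1).l 1).l 1).l 0).l 0) (selB 0 (selB 0 (selB 0 (selB 0 C0 127314744726593972830643128658401331306557022548679604059930263967556299305079376286561279) 3740312558717203333754271) 5) 494581093871) :=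
  Ok.run hw hf5 ⟨597,25,25,1,10⟩ 59
    (.part 190487 (.chk false 0) (.split 1 (.split 0 (.part 432 (.chk false 0) (.split 1 (.split 0 (.part 28 (.chk false 0) (.split 1 (.split 0 (.chk false 0) (.chk false 0)) (.chk false 0))) (.part 7 (.chk false 0) (.split 1 (.split 0 (.chk false 0) (.chk false 0)) (.chk false 0)))) (.chk false 0))) (.part 479 (.chk false 0) (.split 1 (.split 0 (.split 1 (.split 0 (.split 1 (.split 0 (.chk false 0) (.chk false 0)) (.chk false 0)) (.chk false 0)) (.chk false 0)) (.chk false 0)) (.chk false 0)))) (.chk false 0)))
    (by decide +kernel)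

theorem p0_5_1 : Ok par f5 (((((Box3.unit.l 1).l 1).l 1).l 0).r 0) (selB 0 (selB 0 (selB 0 (selB 0 C0 127314744726593972830643128658401331306557022548679604059930263967556299305079376286561279) 3740312558717203333754271) 5) 494581093871) :=
  Ok.run hw hf5 ⟨561,25,25,1,10⟩ 59
    (.part 202731 (.chk false 0) (.split 1 (.split 1 (.split 0 (.part 60 (.chk false 0) (.split 0 (.part 2 (.chk false 0) (.split 1 (.split 0 (.chk false 0) (.chk false 0)) (.chk false 0))) (.chk false 0))) (.part 39 (.chk false 0) (.split 1 (.split 0 (.part 1 (.chk false 0) (.split 1 (.split 0 (.chk false 0) (.chk false 0)) (.chk false 0))) (.part 2 (.chk false 0) (.split 1 (.split 0 (.chk false 0) (.chk false 0)) (.chk false 0)))) (.chk false 0)))) (.chk false 0)) (.chk false 0)))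
    (by decide +kernel)

theorem p0_5_2 : Ok par f5 ((((Box3.unit.l 1).l 1).l 1).l 0) (selB 1 (selB 0 (selB 0 (selB 0 C0 127314744726593972830643128658401331306557022548679604059930263967556299305079376286561279) 3740312558717203333754271) 5) 494581093871) :=
  Ok.run hw hf5 ⟨374,25,25,1,10⟩ 59
    (.chk false 0)
    (by decide +kernel)

theorem p0_5_3 : Ok par f5 ((((Box3.unit.l 1).l 1).l 1).r 0) (selB 1 (selB 0 (selB 0 (selB 0 C0 127314744726593972830643128658401331306557022548679604059930263967556299305079376286561279) 3740312558717203333754271) 5) 1704979065431) :=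
  Ok.run hw hf5 ⟨374,25,25,1,10⟩ 59
    (.chk false 0)
    (by decide +kernel)

theorem p0_5_4 : Ok par f5 ((((Box3.unit.l 1).l 1).l 1).r 0) (selB 0 (selB 0 (selB 0 (selB 0 C0 127314744726593972830643128658401331306557022548679604059930263967556299305079376286561279) 3740312558717203333754271) 5) 1704979065431) :=
  Ok.run hw hf5 ⟨557,25,25,1,10⟩ 59
    (.split 1 (.split 0 (.part 292 (.chk false 0) (.split 1 (.split 0 (.part 2559 (.chk false 0) (.split 1 (.split 0 (.part 7 (.chk false 0) (.split 1 (.split 0 (.chk false 0) (.chk false 0)) (.chk false 0))) (.chk false 0)) (.chk false 0))) (.part 16051 (.chk false 0) (.split 1 (.split 1 (.split 0 (.chk false 0) (.chk false 0)) (.chk false 0)) (.chk false 0)))) (.chk false 0))) (.part 130783 (.chk false 0) (.split 1 (.split 1 (.split 0 (.chk false 0) (.chk false 0)) (.chk false 0)) (.chk false 0)))) (.chk false 0))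
    (by decide +kernel)

theorem p0_5_5 : Ok par f5 (((Box3.unit.l 1).l 1).r 1) (selB 0 (selB 0 (selB 0 C0 127314744726593972830643128658401331306557022548679604059930263967556299305079376286561279) 3740312558717203333754271) 5) :=
  Ok.run hw hf5 ⟨369,25,25,1,10⟩ 59
    (.part 2199023255550 (.chk false 0) (.split 0 (.chk false 0) (.chk false 0)))
    (by decide +kernel)

theorem p0_5_6 : Ok par f5 ((Box3.unit.l 1).l 1) (selB 1 (selB 0 (selB 0 C0 127314744726593972830643128658401331306557022548679604059930263967556299305079376286561279) 3740312558717203333754271) 5) :=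
  Ok.run hw hf5 ⟨309,25,25,1,10⟩ 59
    (.chk false 0)
    (by decide +kernel)

theorem p0_5_7 : Ok par f5 ((Box3.unit.l 1).r 1) (selB 0 (selB 0 C0 127314744726593972830643128658401331306557022548679604059930263967556299305079376286561279) 3740312558717203333754271) :=
  Ok.run hw hf5 ⟨463,25,25,1,10⟩ 59
    (.part 8796093022204 (.chk false 0) (.split 0 (.chk false 0) (.part 2 (.chk false 0) (.split 0 (.chk false 0) (.split 0 (.chk false 0) (.split 1 (.chk false 0) (.split 0 (.chk false 0) (.split 1 (.chk false 0) (.chk false 0)))))))))
    (by decide +kernel)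

theorem p0_5_8 : Ok par f5 (Box3.unit.l 1) (selB 1 (selB 0 C0 127314744726593972830643128658401331306557022548679604059930263967556299305079376286561279) 3740312558717203333754271) :=
  Ok.run hw hf5 ⟨280,25,25,1,10⟩ 59
    (.chk false 0)
    (by decide +kernel)

theorem p0_5_9 : Ok par f5 (Box3.unit.r 1) (selB 1 (selB 0 C0 127314744726593972830643128658401331306557022548679604059930263967556299305079376286561279) 1170930136749520782909281) :=
  Ok.run hw hf5 ⟨280,25,25,1,10⟩ 59
    (.chk false 0)
    (by decide +kernel)

theorem p0_5_10 : Ok par f5 (Box3.unit.r 1) (selB 0 (selB 0 C0 127314744726593972830643128658401331306557022548679604059930263967556299305079376286561279) 1170930136749520782909281) :=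
  Ok.run hw hf5 ⟨467,25,25,1,10⟩ 59
    (.split 0 (.chk false 0) (.part 4328521730 (.chk false 0) (.split 0 (.part 6442417211 (.chk false 0) (.split 1 (.chk false 0) (.part 97 (.chk false 0) (.split 1 (.chk false 0) (.part 12 (.chk false 0) (.split 0 (.chk false 0) (.split 1 (.part 2 (.chk false 0) (.split 0 (.chk false 0) (.chk false 0))) (.chk false 0)))))))) (.part 2214592640 (.chk false 0) (.split 1 (.part 1073739775 (.chk false 0) (.split 1 (.chk false 0) (.chk false 0))) (.part 796986999 (.chk false 0) (.split 1 (.chk false 0) (.part 16379 (.chk false 0) (.split 1 (.chk false 0) (.chk false 0))))))))))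
    (by decide +kernel)

theorem p0_5_11 : Ok par f5 Box3.unit (selB 1 C0 127314744726593972830643128658401331306557022548679604059930263967556299305079376286561279) :=
  Ok.run hw hf5 ⟨242,25,25,1,10⟩ 59
    (.chk false 0)
    (by decide +kernel)

theorem p0_6_0 : Ok par f6 Box3.unit C0 :=
  Ok.run hw hf6 ⟨241,25,25,1,10⟩ 59
    (.chk false 0)
    (by decide +kernel)

theorem p0_7_0 : Ok par f7 Box3.unit C0 :=
  Ok.run hw hf7 ⟨279,25,25,1,10⟩ 59
    (.part 127314748520905380391777855525586135065716774604121015664758778084648831235208544135397119 (.chk false 0) (.split 0 (.chk false 0) (.chk false 0)))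
    (by decide +kernel)

theorem p0_8_0 : Ok par f8 (((((Box3.unit.r 0).r 1).r 0).l 1).r 0) (selB 1 (selB 0 (selB 0 (selB 0 (selB 0 (selB 0 C0 95237428229541554900102265716180414428316077174796582844456451678552055319972694372368383) 6129982220553463141682330203926574381075214514713002007) 8769188230967853034342618418210202889958964984351) 35494216806464210218202527981824) 2658455991569784889924749826249986059) 8) :=
  Ok.run hw hf8 ⟨391,25,25,1,10⟩ 59
    (.chk false 0)
    (by decide +kernel)

theorem p0_8_1 : Ok par f8 (((((Box3.unit.r 0).r 1).r 0).l 1).r 0) (selB 0 (selB 0 (selB 0 (selB 0 (selB 0 (selB 0 C0 95237428229541554900102265716180414428316077174796582844456451678552055319972694372368383) 6129982220553463141682330203926574381075214514713002007) 8769188230967853034342618418210202889958964984351) 35494216806464210218202527981824) 2658455991569784889924749826249986059) 8) :=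
  Ok.run hw hf8 ⟨543,25,25,1,10⟩ 59
    (.split 0 (.chk false 0) (.split 1 (.part 288212779536451499 (.chk false 0) (.split 0 (.chk false 0) (.part 2 (.chk false 0) (.split 1 (.part 510 (.chk false 0) (.split 0 (.chk false 0) (.split 1 (.chk false 0) (.chk false 0)))) (.chk false 0))))) (.part 250508305455120383 (.chk false 0) (.split 0 (.chk false 0) (.part 2 (.chk false 0) (.split 1 (.chk false 0) (.part 62 (.chk false 0) (.split 0 (.chk false 0) (.split 1 (.chk false 0) (.chk false 0))))))))))
    (by decide +kernel)

theorem p0_8_2 : Ok par f8 (((((Box3.unit.r 0).r 1).r 0).l 1).l 0) (selB 0 (selB 0 (selB 0 (selB 0 (selB 0 C0 95237428229541554900102265716180414428316077174796582844456451678552055319972694372368383) 6129982220553463141682330203926574381075214514713002007) 8769188230967853034342618418210202889958964984351) 35494216806464210218202527981824) 2658455991569784889924749826249986059) :=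
  Ok.run hw hf8 ⟨386,25,25,1,10⟩ 59
    (.chk false 0)
    (by decide +kernel)

theorem p0_8_3 : Ok par f8 ((((Box3.unit.r 0).r 1).r 0).l 1) (selB 1 (selB 0 (selB 0 (selB 0 (selB 0 C0 95237428229541554900102265716180414428316077174796582844456451678552055319972694372368383) 6129982220553463141682330203926574381075214514713002007) 8769188230967853034342618418210202889958964984351) 35494216806464210218202527981824) 2658455991569784889924749826249986059) :=
  Ok.run hw hf8 ⟨365,25,25,1,10⟩ 59
    (.chk false 0)
    (by decide +kernel)

theorem p0_8_4 : Ok par f8 ((((Box3.unit.r 0).r 1).r 0).r 1) (selB 0 (selB 0 (selB 0 (selB 0 C0 95237428229541554900102265716180414428316077174796582844456451678552055319972694372368383) 6129982220553463141682330203926574381075214514713002007) 8769188230967853034342618418210202889958964984351) 35494216806464210218202527981824) :=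
  Ok.run hw hf8 ⟨521,25,25,1,10⟩ 59
    (.part 76746659704781585623006325803843583 (.chk false 0) (.split 1 (.part 56535 (.chk false 0) (.split 0 (.part 227 (.chk false 0) (.split 1 (.chk false 0) (.chk false 0))) (.part 208 (.chk false 0) (.split 1 (.part 21 (.chk false 0) (.split 0 (.chk false 0) (.part 2 (.chk false 0) (.split 0 (.chk false 0) (.split 1 (.chk false 0) (.chk false 0)))))) (.chk false 0))))) (.chk false 0)))
    (by decide +kernel)

theorem p0_8_5 : Ok par f8 (((Box3.unit.r 0).r 1).r 0) (selB 1 (selB 0 (selB 0 (selB 0 C0 95237428229541554900102265716180414428316077174796582844456451678552055319972694372368383) 6129982220553463141682330203926574381075214514713002007) 8769188230967853034342618418210202889958964984351) 35494216806464210218202527981824) :=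
  Ok.run hw hf8 ⟨347,25,25,1,10⟩ 59
    (.chk false 0)
    (by decide +kernel)

theorem p0_8_6 : Ok par f8 (((Box3.unit.r 0).r 1).l 0) (selB 0 (selB 0 (selB 0 C0 95237428229541554900102265716180414428316077174796582844456451678552055319972694372368383) 6129982220553463141682330203926574381075214514713002007) 8769188230967853034342618418210202889958964984351) :=
  Ok.run hw hf8 ⟨365,25,25,1,10⟩ 59
    (.part 340282356779733661637539395458008350719 (.chk false 0) (.split 1 (.chk false 0) (.chk false 0)))
    (by decide +kernel)

theorem p0_8_7 : Ok par f8 ((Box3.unit.r 0).r 1) (selB 1 (selB 0 (selB 0 C0 95237428229541554900102265716180414428316077174796582844456451678552055319972694372368383) 6129982220553463141682330203926574381075214514713002007) 8769188230967853034342618418210202889958964984351) :=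
  Ok.run hw hf8 ⟨318,25,25,1,10⟩ 59
    (.chk false 0)
    (by decide +kernel)

theorem p0_8_8 : Ok par f8 ((Box3.unit.r 0).l 1) (selB 0 (selB 0 C0 95237428229541554900102265716180414428316077174796582844456451678552055319972694372368383) 6129982220553463141682330203926574381075214514713002007) :=
  Ok.run hw hf8 ⟨487,25,25,1,10⟩ 59
    (.part 23945242826029513411849172299223488760321190518458357 (.chk false 0) (.split 0 (.chk false 0) (.part 65536 (.chk false 0) (.split 0 (.chk false 0) (.split 1 (.chk false 0) (.part 137259 (.chk false 0) (.split 0 (.chk false 0) (.split 1 (.chk false 0) (.part 1555 (.chk false 0) (.split 0 (.chk false 0) (.split 1 (.chk false 0) (.chk false 0))))))))))))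
    (by decide +kernel)

theorem p0_8_9 : Ok par f8 (Box3.unit.r 0) (selB 1 (selB 0 C0 95237428229541554900102265716180414428316077174796582844456451678552055319972694372368383) 6129982220553463141682330203926574381075214514713002007) :=
  Ok.run hw hf8 ⟨280,25,25,1,10⟩ 59
    (.chk false 0)
    (by decide +kernel)

theorem p0_8_10 : Ok par f8 (Box3.unit.l 0) (selB 0 C0 95237428229541554900102265716180414428316077174796582844456451678552055319972694372368383) :=
  Ok.run hw hf8 ⟨280,25,25,1,10⟩ 59
    (.chk false 0)
    (by decide +kernel)

theorem p0_8_11 : Ok par f8 Box3.unit (selB 1 C0 95237428229541554900102265716180414428316077174796582844456451678552055319972694372368383) :=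
  Ok.run hw hf8 ⟨242,25,25,1,10⟩ 59
    (.chk false 0)
    (by decide +kernel)

theorem p0_9_0 : Ok par f9 ((Box3.unit.r 0).l 1) (selB 1 (selB 0 (selB 0 C0 26358141015409186615220894918997549313990213884743368609954237165153251273843093939273727) 12367983375823137046778284978103928026730105921289625637210697533352838271) 6739986663648245555665404440994363177851099200983643408853902294482) :=
  Ok.run hw hf9 ⟨318,25,25,1,10⟩ 59
    (.chk false 0)
    (by decide +kernel)


end Crest.Agent.R163.P8G
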