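import Crest.Agent.R163.Q3.D.P8G.P0_0
import Crest.Agent.R163.Q3.D.P8G.P0_1
import Crest.Agent.R163.Q3.D.P8G.P0_2

set_option autoImplicit false
set_option maxRecDepth 100000
set_option linter.all false
set_option Elab.async false

namespace Crest.Agent.R163.P8G

theorem o0_9 : Ok par f9 Box3.unit C0 :=
  (Ok.part 26358141015409186615220894918997549313990213884743368609954237165153251273843093939273727 p0_9_18 (Ok.split 0 p0_9_17 (Ok.part 12367983375823137046778284978103928026730105921289625637210697533352838271 p0_9_16 (Ok.split 1 (Ok.part 6739986663648245555665404440994363177851099200983643408853902294482 p0_9_0 p0_9_1) (Ok.part 1685613737183031630329731694536781741170644052451906787059064375298 p0_9_15 (Ok.split 0 (Ok.part 804842319220055518027766107381287714492394599145869271896065 p0_9_11 (Ok.split 1 p0_9_10 (Ok.part 5851715540094435512338972475038082467948241354787 p0_9_9 (Ok.split 0 (Ok.part 707909287882153559406803316459825952655346196463 p0_9_2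 p0_9_3) (Ok.part 5846006548704300459942463064407443785212217310198 p0_9_8 (Ok.split 1 p0_9_7 (Ok.part 9898684906152629599335350318 p0_9_6 (Ok.split 0 p0_9_4 p0_9_5)))))))) (Ok.part 1606938044258990275538559268611107168695798978324450212843859 p0_9_14 (Ok.split 1 p0_9_12 p0_9_13))))))))
theorem o0_8 : Ok par f8 Box3.unit C0 :=
  (Ok.part 95237428229541554900102265716180414428316077174796582844456451678552055319972694372368383 p0_8_11 (Ok.split 0 p0_8_10 (Ok.part 6129982220553463141682330203926574381075214514713002007 p0_8_9 (Ok.split 1 p0_8_8 (Ok.part 8769188230967853034342618418210202889958964984351 p0_8_7 (Ok.split 0 p0_8_6 (Ok.part 35494216806464210218202527981824 p0_8_5 (Ok.split 1 (Ok.part 2658455991569784889924749826249986059 p0_8_3 (Ok.split 0 p0_8_2 (Ok.part 8 p0_8_0 p0_8_1))) p0_8_4))))))))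
theorem o0_7 : Ok par f7 Box3.unit C0 :=
  p0_7_0
theorem o0_6 : Ok par f6 Box3.unit C0 :=
  p0_6_0
theorem o0_5 : Ok par f5 Box3.unit C0 :=
  (Ok.part 127314744726593972830643128658401331306557022548679604059930263967556299305079376286561279 p0_5_11 (Ok.split 1 (Ok.part 3740312558717203333754271 p0_5_8 (Ok.split 1 (Ok.part 5 p0_5_6 (Ok.split 1 (Ok.split 0 (Ok.part 494581093871 p0_5_2 (Ok.split 0 p0_5_0 p0_5_1)) (Ok.part 1704979065431 p0_5_3 p0_5_4)) p0_5_5)) p0_5_7)) (Ok.part 1170930136749520782909281 p0_5_9 p0_5_10)))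
theorem o0_4 : Ok par f4 Box3.unit C0 :=
  (Ok.part 127066327839807649082762571294326593265165711529938506709219326957958083453617474556133375 p0_4_13 (Ok.split 1 (Ok.split 0 p0_4_11 (Ok.part 4839835493369361251778560 p0_4_10 (Ok.split 1 (Ok.split 0 (Ok.part 208732161071105 p0_4_3 (Ok.split 1 (Ok.split 0 p0_4_0 p0_4_1) p0_4_2)) (Ok.part 302231454694993852082175 p0_4_8 (Ok.split 1 (Ok.split 1 (Ok.split 0 p0_4_4 p0_4_5) p0_4_6) p0_4_7))) p0_4_9))) p0_4_12))
theorem o0_3 : Ok par f3 Box3.unit C0 :=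
  (Ok.part 127066206422820955190411754166134705070909771157716959013487377261832504927684564961189695 p0_3_8 (Ok.split 0 (Ok.part 31 p0_3_6 (Ok.split 1 p0_3_5 (Ok.part 9 p0_3_4 (Ok.split 0 (Ok.part 65552 p0_3_2 (Ok.split 1 p0_3_0 p0_3_1)) p0_3_3)))) p0_3_7))
theorem o0_2 : Ok par f2 Box3.unit C0 :=
  p0_2_0
theorem o0_1 : Ok par f1 Box3.unit C0 :=
  (Ok.part 95486061390678870096948934658490905738263935913981235697984009926766607059168523601051631 p0_1_18 (Ok.split 0 p0_1_17 (Ok.part 15951384986526307475873206375068729887 p0_1_16 (Ok.split 0 (Ok.part 1297967986293603314885292430721026 p0_1_10 (Ok.split 0 (Ok.part 604462756207755314481172 p0_1_2 (Ok.split 1 p0_1_0 p0_1_1)) (Ok.part 389211012065259 p0_1_9 (Ok.split 1 p0_1_8 (Ok.part 1125901048774728 p0_1_7 (Ok.split 1 p0_1_6 (Ok.part 8519680 p0_1_5 (Ok.split 0 p0_1_3 p0_1_4)))))))) (Ok.part 85802367234242996683392679933 p0_1_15 (Ok.split 1 p0_1_14 (Ok.part 400 p0_1_13 (Ok.split 0 p0_1_11 p0_1_12))))))))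
theorem o0_0 : Ok par f0 Box3.unit C0 :=
  (Ok.part 127314748520904928078929272259172652568180163637318392068459385845025837509308272431071215 p0_0_0 p0_0_1)

theorem pt0 : PtAll par C0 :=
  PtAll.of_okD hw (OkD.cover [f0.dom,f1.dom,f2.dom,f3.dom,f4.dom,f5.dom,f6.dom,f7.dom,f8.dom,f9.dom]
    (.split 0 (.split 0 (.split 1 (.leaf 0) (.leaf 1)) (.split 1 (.leaf 2) (.leaf 3))) (.split 1 (.split 0 (.leaf 4) (.leaf 5)) (.split 0 (.split 1 (.leaf 6) (.leaf 7)) (.split 1 (.leaf 8) (.leaf 9)))))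
    (by decide +kernel)
    (List.forall_mem_cons.2 ⟨OkD.of_ok o0_0, (List.forall_mem_cons.2 ⟨OkD.of_ok o0_1, (List.forall_mem_cons.2 ⟨OkD.of_ok o0_2, (List.forall_mem_cons.2 ⟨OkD.of_ok o0_3, (List.forall_mem_cons.2 ⟨OkD.of_ok o0_4, (List.forall_mem_cons.2 ⟨OkD.of_ok o0_5, (List.forall_mem_cons.2 ⟨OkD.of_ok o0_6, (List.forall_mem_cons.2 ⟨OkD.of_ok o0_7, (List.forall_mem_cons.2 ⟨OkD.of_ok o0_8, (List.forall_mem_cons.2 ⟨OkD.of_ok o0_9, (fun _ h => nomatch h)⟩)⟩)⟩)⟩)⟩)⟩)⟩)⟩)⟩)⟩))

end Crest.Agent.R163.P8G
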