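import Crest.Agent.R163.Q3.D.P8G.P1_0
import Crest.Agent.R163.Q3.D.P8G.P1_1

set_option autoImplicit false
set_option maxRecDepth 100000
set_option linter.all false
set_option Elab.async false

namespace Crest.Agent.R163.P8G

theorem o1_9 : Ok par f9 Box3.unit C1 :=
  (Ok.part 1654112627044861789106794657854188286737263686492168279634561021356367461129686486995699808 p1_9_5 (Ok.split 0 (Ok.part 1521807352472762481368696662893078003625998859763725678215006639957737469 p1_9_2 (Ok.split 1 p1_9_0 p1_9_1)) (Ok.part 1766847064776275223400114039890329269530149197310929122177317572944364560 p1_9_3 p1_9_4)))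
theorem o1_8 : Ok par f8 Box3.unit C1 :=
  (Ok.part 1614326888480355697740669353333940938910139402867366529115043650187499490424577687420372799 p1_8_11 (Ok.split 1 p1_8_10 (Ok.part 66290130445131736045585038673169639901769186189065326449131527 p1_8_9 (Ok.split 0 p1_8_8 (Ok.part 637209071005770977214661245902173358958802313939204 p1_8_7 (Ok.split 1 (Ok.part 332317140151030794065957884593719152 p1_8_5 (Ok.split 0 (Ok.part 20282642926603054812779826380799 p1_8_3 (Ok.split 1 (Ok.part 72377563729887231 p1_8_0 p1_8_1) p1_8_2)) p1_8_4)) p1_8_6))))))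
theorem o1_7 : Ok par f7 Box3.unit C1 :=
  p1_7_0
theorem o1_6 : Ok par f6 Box3.unit C1 :=
  p1_6_0
theorem o1_5 : Ok par f5 Box3.unit C1 :=
  (Ok.part 505277922940238497948898906201985720555275480723528072102414843951856966747559937426749552 p1_5_5 (Ok.split 1 (Ok.part 576873722091143614 p1_5_2 (Ok.split 1 p1_5_0 p1_5_1)) (Ok.part 2305389494917856299 p1_5_3 p1_5_4)))
theorem o1_4 : Ok par f4 Box3.unit C1 :=
  (Ok.part 1654426181678587051014686966311697638050913897922128263571041078464188850532678899507629951 p1_4_7 (Ok.split 1 (Ok.split 0 p1_4_5 (Ok.part 447164271269307514678175513681402068092233 p1_4_4 (Ok.split 1 (Ok.split 0 (Ok.part 2228231552524099508798444825527339 p1_4_0 p1_4_1) p1_4_2) p1_4_3))) p1_4_6))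
theorem o1_3 : Ok par f3 Box3.unit C1 :=
  (Ok.part 634600508900046976561457431559969378168192605898414530059075389921498766564675477490093983 p1_3_9 (Ok.split 0 (Ok.part 1695444662270522546022119686701129795467041456128019 p1_3_7 (Ok.split 1 p1_3_6 (Ok.part 42537892013546577707919332611958243328 p1_3_5 (Ok.split 0 (Ok.part 4464351715184652634060297514253224491658779 p1_3_3 (Ok.split 1 p1_3_2 (Ok.split 0 p1_3_0 p1_3_1))) p1_3_4)))) p1_3_8))
theorem o1_2 : Ok par f2 Box3.unit C1 :=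
  p1_2_0
theorem o1_1 : Ok par f1 Box3.unit C1 :=
  p1_1_0
theorem o1_0 : Ok par f0 Box3.unit C1 :=
  p1_0_0

theorem pt1 : PtAll par C1 :=
  PtAll.of_okD hw (OkD.cover [f0.dom,f1.dom,f2.dom,f3.dom,f4.dom,f5.dom,f6.dom,f7.dom,f8.dom,f9.dom]
    (.split 0 (.split 0 (.split 1 (.leaf 0) (.leaf 1)) (.split 1 (.leaf 2) (.leaf 3))) (.split 1 (.split 0 (.leaf 4) (.leaf 5)) (.split 0 (.split 1 (.leaf 6) (.leaf 7)) (.split 1 (.leaf 8) (.leaf 9)))))
    (by decide +kernel)
    (List.forall_mem_cons.2 ⟨OkD.of_ok o1_0, (List.forall_mem_cons.2 ⟨OkD.of_ok o1_1, (List.forall_mem_cons.2 ⟨OkD.of_ok o1_2, (List.forall_mem_cons.2 ⟨OkD.of_ok o1_3, (List.forall_mem_cons.2 ⟨OkD.of_ok o1_4, (List.forall_mem_cons.2 ⟨OkD.of_ok o1_5, (List.forall_mem_cons.2 ⟨OkD.of_ok o1_6, (List.forall_mem_cons.2 ⟨OkD.of_ok o1_7, (List.forall_mem_cons.2 ⟨OkD.of_ok o1_8, (List.forall_mem_cons.2 ⟨OkD.of_ok o1_9, (fun _ h => nomatch h)⟩)⟩)⟩)⟩)⟩)⟩)⟩)⟩)⟩)⟩))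

end Crest.Agent.R163.P8G
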