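import Crest.Agent.R163.Q3.D.P8G.S2
import Crest.Agent.R163.Q3.D.P8G.H

set_option autoImplicit false
set_option maxRecDepth 100000
set_option linter.all false
set_option Elab.async false

namespace Crest.Agent.R163.P8G

theorem p2_5_11 : Ok par f5 (((Box3.unit.r 1).r 1).l 0) (selB 1 (selB 0 (selB 0 (selB 0 C2 61133480273647594346296029097124499657439312101420923338101987491724940725519035122555) 365286903278631309550695045565164661584034791422) 27856002677770566730772497490) 302641945755590164223) :=
  Ok.run hw hf5 ⟨346,25,25,1,10⟩ 58
    (.chk false 0)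
    (by decide +kernel)

theorem p2_5_12 : Ok par f5 (((Box3.unit.r 1).r 1).r 0) (selB 0 (selB 0 (selB 0 C2 61133480273647594346296029097124499657439312101420923338101987491724940725519035122555) 365286903278631309550695045565164661584034791422) 27856002677770566730772497490) :=
  Ok.run hw hf5 ⟨427,25,25,1,10⟩ 58
    (.part 2358877387430475560879 (.chk false 0) (.split 1 (.part 255 (.chk false 0) (.split 1 (.chk false 0) (.chk false 0))) (.part 495 (.chk false 0) (.split 1 (.chk false 0) (.split 0 (.chk false 0) (.chk false 0))))))
    (by decide +kernel)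

theorem p2_5_13 : Ok par f5 ((Box3.unit.r 1).r 1) (selB 1 (selB 0 (selB 0 C2 61133480273647594346296029097124499657439312101420923338101987491724940725519035122555) 365286903278631309550695045565164661584034791422) 27856002677770566730772497490) :=
  Ok.run hw hf5 ⟨308,25,25,1,10⟩ 58
    (.chk false 0)
    (by decide +kernel)

theorem p2_5_14 : Ok par f5 ((Box3.unit.r 1).l 1) (selB 0 (selB 0 C2 61133480273647594346296029097124499657439312101420923338101987491724940725519035122555) 365286903278631309550695045565164661584034791422) :=
  Ok.run hw hf5 ⟨481,25,25,1,10⟩ 58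
    (.part 4784966172964665274555340791 (.chk false 0) (.split 0 (.part 1038333 (.chk false 0) (.split 1 (.part 30 (.chk false 0) (.split 0 (.chk false 0) (.chk false 0))) (.part 2 (.chk false 0) (.split 0 (.chk false 0) (.part 9 (.chk false 0) (.split 1 (.chk false 0) (.part 1 (.chk false 0) (.split 0 (.split 1 (.split 0 (.chk false 0) (.chk false 0)) (.chk false 0)) (.chk false 0))))))))) (.part 4194263 (.chk false 0) (.split 1 (.chk false 0) (.part 1 (.chk false 0) (.split 0 (.chk false 0) (.chk false 0)))))))
    (by decide +kernel)

theorem p2_5_15 : Ok par f5 (Box3.unit.r 1) (selB 1 (selB 0 C2 61133480273647594346296029097124499657439312101420923338101987491724940725519035122555) 365286903278631309550695045565164661584034791422) :=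
  Ok.run hw hf5 ⟨279,25,25,1,10⟩ 58
    (.chk false 0)
    (by decide +kernel)

theorem p2_5_16 : Ok par f5 Box3.unit (selB 1 C2 61133480273647594346296029097124499657439312101420923338101987491724940725519035122555) :=
  Ok.run hw hf5 ⟨241,25,25,1,10⟩ 58
    (.chk false 0)
    (by decide +kernel)

theorem p2_6_0 : Ok par f6 Box3.unit C2 :=
  Ok.run hw hf6 ⟨240,25,25,1,10⟩ 58
    (.chk false 0)
    (by decide +kernel)

theorem p2_7_0 : Ok par f7 Box3.unit C2 :=
  Ok.run hw hf7 ⟨401,25,25,1,10⟩ 58
    (.part 124271418782626962993694831449238476636942818862951030060066170531834310561767293452287 (.chk false 0) (.split 0 (.part 35061759 (.chk false 0) (.split 1 (.chk false 0) (.split 0 (.chk false 0) (.chk false 0)))) (.part 67045502 (.chk false 0) (.split 1 (.chk false 0) (.split 0 (.chk false 0) (.part 369 (.chk false 0) (.split 1 (.chk false 0) (.split 0 (.chk false 0) (.chk false 0)))))))))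
    (by decide +kernel)

theorem p2_8_0 : Ok par f8 (((((Box3.unit.l 1).l 0).r 0).l 1).l 0) (selB 0 (selB 0 (selB 0 (selB 0 (selB 0 C2 127314748520905380377554795316503268043006065150068725952119830001116621593682679995367434) 36030996045365380) 1099279747595637103877724837505895528434) 1035400177883730149377) 639847047888895) :=
  Ok.run hw hf8 ⟨506,25,25,1,10⟩ 58
    (.part 96991 (.chk false 0) (.split 1 (.part 19 (.chk false 0) (.split 0 (.chk false 0) (.split 1 (.chk false 0) (.chk false 0)))) (.part 28 (.chk false 0) (.split 0 (.chk false 0) (.part 2 (.chk false 0) (.split 1 (.chk false 0) (.split 0 (.chk false 0) (.split 1 (.chk false 0) (.chk false 0)))))))))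
    (by decide +kernel)

theorem p2_8_1 : Ok par f8 (((((Box3.unit.l 1).l 0).r 0).l 1).r 0) (selB 0 (selB 0 (selB 0 (selB 0 (selB 0 C2 127314748520905380377554795316503268043006065150068725952119830001116621593682679995367434) 36030996045365380) 1099279747595637103877724837505895528434) 1035400177883730149377) 639847047888895) :=
  Ok.run hw hf8 ⟨511,25,25,1,10⟩ 58
    (.part 36475 (.chk false 0) (.split 1 (.part 167 (.chk false 0) (.split 1 (.part 1 (.chk false 0) (.split 0 (.part 1 (.chk false 0) (.split 1 (.split 0 (.chk false 0) (.chk false 0)) (.chk false 0))) (.chk false 0))) (.part 6 (.chk false 0) (.split 0 (.chk false 0) (.chk false 0))))) (.part 252 (.chk false 0) (.split 0 (.part 2 (.chk false 0) (.split 1 (.chk false 0) (.split 0 (.chk false 0) (.split 1 (.chk false 0) (.chk false 0))))) (.chk false 0)))))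
    (by decide +kernel)

theorem p2_8_2 : Ok par f8 ((((Box3.unit.l 1).l 0).r 0).l 1) (selB 1 (selB 0 (selB 0 (selB 0 (selB 0 C2 127314748520905380377554795316503268043006065150068725952119830001116621593682679995367434) 36030996045365380) 1099279747595637103877724837505895528434) 1035400177883730149377) 639847047888895) :=
  Ok.run hw hf8 ⟨364,25,25,1,10⟩ 58
    (.chk false 0)
    (by decide +kernel)

theorem p2_8_3 : Ok par f8 ((((Box3.unit.l 1).l 0).r 0).r 1) (selB 0 (selB 0 (selB 0 (selB 0 C2 127314748520905380377554795316503268043006065150068725952119830001116621593682679995367434) 36030996045365380) 1099279747595637103877724837505895528434) 1035400177883730149377) :=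
  Ok.run hw hf8 ⟨492,25,25,1,10⟩ 58
    (.part 2305814900565320138 (.chk false 0) (.split 0 (.chk false 0) (.part 200736 (.chk false 0) (.split 1 (.part 479 (.chk false 0) (.split 0 (.part 47 (.chk false 0) (.split 1 (.chk false 0) (.chk false 0))) (.part 62 (.chk false 0) (.split 1 (.chk false 0) (.split 0 (.chk false 0) (.split 1 (.chk false 0) (.chk false 0))))))) (.part 16371 (.chk false 0) (.split 0 (.chk false 0) (.split 1 (.chk false 0) (.part 1 (.chk false 0) (.split 0 (.chk false 0) (.chk false 0))))))))))
    (by decide +kernel)

theorem p2_8_4 : Ok par f8 (((Box3.unit.l 1).l 0).r 0) (selB 1 (selB 0 (selB 0 (selB 0 C2 127314748520905380377554795316503268043006065150068725952119830001116621593682679995367434) 36030996045365380) 1099279747595637103877724837505895528434) 1035400177883730149377) :=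
  Ok.run hw hf8 ⟨335,25,25,1,10⟩ 58
    (.chk false 0)
    (by decide +kernel)

theorem p2_8_5 : Ok par f8 (((Box3.unit.l 1).l 0).l 0) (selB 0 (selB 0 (selB 0 C2 127314748520905380377554795316503268043006065150068725952119830001116621593682679995367434) 36030996045365380) 1099279747595637103877724837505895528434) :=
  Ok.run hw hf8 ⟨346,25,25,1,10⟩ 58
    (.chk false 0)
    (by decide +kernel)

theorem p2_8_6 : Ok par f8 ((Box3.unit.l 1).l 0) (selB 1 (selB 0 (selB 0 C2 127314748520905380377554795316503268043006065150068725952119830001116621593682679995367434) 36030996045365380) 1099279747595637103877724837505895528434) :=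
  Ok.run hw hf8 ⟨317,25,25,1,10⟩ 58
    (.chk false 0)
    (by decide +kernel)

theorem p2_8_7 : Ok par f8 ((Box3.unit.l 1).r 0) (selB 0 (selB 0 C2 127314748520905380377554795316503268043006065150068725952119830001116621593682679995367434) 36030996045365380) :=
  Ok.run hw hf8 ⟨441,25,25,1,10⟩ 58
    (.part 1361129462593344270631337288521182094551 (.chk false 0) (.split 1 (.part 274810798079 (.chk false 0) (.split 0 (.part 3 (.chk false 0) (.split 1 (.split 0 (.chk false 0) (.chk false 0)) (.chk false 0))) (.chk false 0))) (.part 1099437501961 (.chk false 0) (.split 0 (.part 2064 (.chk false 0) (.split 1 (.part 3967 (.chk false 0) (.split 0 (.chk false 0) (.chk false 0))) (.part 3915 (.chk false 0) (.split 0 (.part 8 (.chk false 0) (.split 1 (.chk false 0) (.part 6 (.chk false 0) (.split 0 (.chk false 0) (.chk false 0))))) (.chk false 0))))) (.chk false 0)))))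
    (by decide +kernel)

theorem p2_8_8 : Ok par f8 (Box3.unit.l 1) (selB 1 (selB 0 C2 127314748520905380377554795316503268043006065150068725952119830001116621593682679995367434) 36030996045365380) :=
  Ok.run hw hf8 ⟨279,25,25,1,10⟩ 58
    (.chk false 0)
    (by decide +kernel)

theorem p2_8_9 : Ok par f8 (Box3.unit.r 1) (selB 0 C2 127314748520905380377554795316503268043006065150068725952119830001116621593682679995367434) :=
  Ok.run hw hf8 ⟨364,25,25,1,10⟩ 58
    (.part 87027215339960687383835635927783874611398 (.chk false 0) (.split 0 (.part 34359738239 (.chk false 0) (.split 0 (.chk false 0) (.split 1 (.chk false 0) (.chk false 0)))) (.part 34359738239 (.chk false 0) (.split 0 (.split 1 (.chk false 0) (.chk false 0)) (.chk false 0)))))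
    (by decide +kernel)

theorem p2_8_10 : Ok par f8 Box3.unit (selB 1 C2 127314748520905380377554795316503268043006065150068725952119830001116621593682679995367434) :=
  Ok.run hw hf8 ⟨241,25,25,1,10⟩ 58
    (.chk false 0)
    (by decide +kernel)

theorem p2_9_0 : Ok par f9 (Box3.unit.l 0) (selB 0 C2 127314748520905380004444285302132957062891152338733930690495534700143071691290239119196160) :=
  Ok.run hw hf9 ⟨443,25,25,1,10⟩ 58
    (.part 300082823766614012505642266860012322335 (.chk false 0) (.split 1 (.chk false 0) (.part 2286986433921024 (.chk false 0) (.split 0 (.part 1004128994066431 (.chk false 0) (.split 1 (.chk false 0) (.part 16 (.chk false 0) (.split 0 (.chk false 0) (.chk false 0))))) (.part 1125899906833487 (.chk false 0) (.split 1 (.chk false 0) (.split 0 (.part 7 (.chk false 0) (.split 1 (.chk false 0) (.part 1 (.chk false 0) (.split 0 (.chk false 0) (.chk false 0))))) (.chk false 0))))))))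
    (by decide +kernel)

theorem p2_9_1 : Ok par f9 (Box3.unit.r 0) (selB 0 C2 127314748520905380004444285302132957062891152338733930690495534700143071691290239119196160) :=
  Ok.run hw hf9 ⟨279,25,25,1,10⟩ 58
    (.chk false 0)
    (by decide +kernel)

theorem p2_9_2 : Ok par f9 Box3.unit (selB 1 C2 127314748520905380004444285302132957062891152338733930690495534700143071691290239119196160) :=
  Ok.run hw hf9 ⟨241,25,25,1,10⟩ 58
    (.chk false 0)
    (by decide +kernel)


end Crest.Agent.R163.P8G
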