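import Crest.Agent.R163.Q3.D.P8G.P2_0
import Crest.Agent.R163.Q3.D.P8G.P2_1

set_option autoImplicit false
set_option maxRecDepth 100000
set_option linter.all false
set_option Elab.async false

namespace Crest.Agent.R163.P8G

theorem o2_9 : Ok par f9 Box3.unit C2 :=
  (Ok.part 127314748520905380004444285302132957062891152338733930690495534700143071691290239119196160 p2_9_2 (Ok.split 0 p2_9_0 p2_9_1))
theorem o2_8 : Ok par f8 Box3.unit C2 :=
  (Ok.part 127314748520905380377554795316503268043006065150068725952119830001116621593682679995367434 p2_8_10 (Ok.split 1 (Ok.part 36030996045365380 p2_8_8 (Ok.split 0 (Ok.part 1099279747595637103877724837505895528434 p2_8_6 (Ok.split 0 p2_8_5 (Ok.part 1035400177883730149377 p2_8_4 (Ok.split 1 (Ok.part 639847047888895 p2_8_2 (Ok.split 0 p2_8_0 p2_8_1)) p2_8_3)))) p2_8_7)) p2_8_9))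
theorem o2_7 : Ok par f7 Box3.unit C2 :=
  p2_7_0
theorem o2_6 : Ok par f6 Box3.unit C2 :=
  p2_6_0
theorem o2_5 : Ok par f5 Box3.unit C2 :=
  (Ok.part 61133480273647594346296029097124499657439312101420923338101987491724940725519035122555 p2_5_16 (Ok.split 1 (Ok.part 172700084262838760619307630748708296695218176 p2_5_6 (Ok.split 1 (Ok.part 19266962413542440960 p2_5_4 (Ok.split 0 (Ok.part 15523172092739965 p2_5_2 (Ok.split 1 p2_5_0 p2_5_1)) p2_5_3)) p2_5_5)) (Ok.part 365286903278631309550695045565164661584034791422 p2_5_15 (Ok.split 1 p2_5_14 (Ok.part 27856002677770566730772497490 p2_5_13 (Ok.split 0 (Ok.part 302641945755590164223 p2_5_11 (Ok.split 1 p2_5_10 (Ok.part 7499418634 p2_5_9 (Ok.split 0 p2_5_7 p2_5_8)))) p2_5_12))))))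
theorem o2_4 : Ok par f4 Box3.unit C2 :=
  (Ok.part 5346178244981840175603588409468281263872513281945870044253391731396321639378910289673878 p2_4_6 (Ok.split 1 (Ok.part 953273251371628509925520810442752 p2_4_4 (Ok.split 0 p2_4_3 (Ok.part 10138970403535376563309067834661 p2_4_2 (Ok.split 1 p2_4_0 p2_4_1)))) p2_4_5))
theorem o2_3 : Ok par f3 Box3.unit C2 :=
  (Ok.part 127266181798599737165004868977915522569707262003299161444256846548904057447947268369221807 p2_3_4 (Ok.split 0 (Ok.part 597564602214353534451721 p2_3_2 (Ok.split 1 p2_3_0 p2_3_1)) p2_3_3))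
theorem o2_2 : Ok par f2 Box3.unit C2 :=
  p2_2_0
theorem o2_1 : Ok par f1 Box3.unit C2 :=
  (Ok.part 127314698843325511680042072826968823608725558506020079985771804385225320119593557955442523 p2_1_4 (Ok.split 0 p2_1_3 (Ok.part 2338057849716832023469668281 p2_1_2 (Ok.split 0 p2_1_0 p2_1_1))))
theorem o2_0 : Ok par f0 Box3.unit C2 :=
  (Ok.part 127314737608136921619127582068026185781414262235347745256365805440943569104960283463385086 p2_0_0 p2_0_1)

theorem pt2 : PtAll par C2 :=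
  PtAll.of_okD hw (OkD.cover [f0.dom,f1.dom,f2.dom,f3.dom,f4.dom,f5.dom,f6.dom,f7.dom,f8.dom,f9.dom]
    (.split 0 (.split 0 (.split 1 (.leaf 0) (.leaf 1)) (.split 1 (.leaf 2) (.leaf 3))) (.split 1 (.split 0 (.leaf 4) (.leaf 5)) (.split 0 (.split 1 (.leaf 6) (.leaf 7)) (.split 1 (.leaf 8) (.leaf 9)))))
    (by decide +kernel)
    (List.forall_mem_cons.2 ⟨OkD.of_ok o2_0, (List.forall_mem_cons.2 ⟨OkD.of_ok o2_1, (List.forall_mem_cons.2 ⟨OkD.of_ok o2_2, (List.forall_mem_cons.2 ⟨OkD.of_ok o2_3, (List.forall_mem_cons.2 ⟨OkD.of_ok o2_4, (List.forall_mem_cons.2 ⟨OkD.of_ok o2_5, (List.forall_mem_cons.2 ⟨OkD.of_ok o2_6, (List.forall_mem_cons.2 ⟨OkD.of_ok o2_7, (List.forall_mem_cons.2 ⟨OkD.of_ok o2_8, (List.forall_mem_cons.2 ⟨OkD.of_ok o2_9, (fun _ h => nomatch h)⟩)⟩)⟩)⟩)⟩)⟩)⟩)⟩)⟩)⟩))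

end Crest.Agent.R163.P8G
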