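import Crest.Agent.R163.Q3.D.P8G.S2

set_option autoImplicit false
set_option maxRecDepth 100000
set_option linter.all false
set_option Elab.async false

namespace Crest.Agent.R163.P8G

theorem c60_0 : stepsOK par ⟨717,23,12,1,9⟩ b60_0 s60_0 a60_0 = true := by decide +kernel
theorem c61_0 : stepsOK par ⟨720,23,12,1,9⟩ b61_0 s61_0 a61_0 = true := by decide +kernel
theorem c62_0 : stepsOK par ⟨721,23,12,1,9⟩ b62_0 s62_0 a62_0 = true := by decide +kernel
theorem c63_0 : stepsOK par ⟨718,23,12,1,9⟩ b63_0 s63_0 a63_0 = true := by decide +kernel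
theorem c64_0 : stepsOK par ⟨721,23,12,1,9⟩ b64_0 s64_0 a64_0 = true := by decide +kernel
theorem c65_0 : stepsOK par ⟨720,23,12,1,9⟩ b65_0 s65_0 a65_0 = true := by decide +kernel
theorem c66_0 : stepsOK par ⟨714,23,12,1,9⟩ b66_0 s66_0 a66_0 = true := by decide +kernel
theorem c67_0 : stepsOK par ⟨714,23,12,1,9⟩ b67_0 s67_0 a67_0 = true := by decide +kernel
theorem c68_0 : stepsOK par ⟨718,23,12,1,9⟩ b68_0 s68_0 a68_0 = true := by decide +kernel
theorem c69_0 : stepsOK par ⟨721,23,12,1,9⟩ b69_0 s69_0 a69_0 = true := by decide +kernel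
theorem c70_0 : stepsOK par ⟨721,23,12,1,9⟩ b70_0 s70_0 a70_0 = true := by decide +kernel
theorem c71_0 : stepsOK par ⟨721,23,12,1,9⟩ b71_0 s71_0 a71_0 = true := by decide +kernel
theorem c72_0 : stepsOK par ⟨716,23,12,1,9⟩ b72_0 s72_0 a72_0 = true := by decide +kernel
theorem c73_0 : stepsOK par ⟨722,23,12,1,9⟩ b73_0 s73_0 a73_0 = true := by decide +kernel
theorem c74_0 : stepsOK par ⟨722,23,12,1,9⟩ b74_0 s74_0 a74_0 = true := by decide +kernel
theorem c75_0 : stepsOK par ⟨713,23,12,1,9⟩ b75_0 s75_0 a75_0 = true := by decide +kernel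
theorem c76_0 : stepsOK par ⟨714,23,12,1,9⟩ b76_0 s76_0 a76_0 = true := by decide +kernel
theorem c77_0 : stepsOK par ⟨715,23,12,1,9⟩ b77_0 s77_0 a77_0 = true := by decide +kernel
theorem c78_0 : stepsOK par ⟨716,23,12,1,9⟩ b78_0 s78_0 a78_0 = true := by decide +kernel
theorem c79_0 : stepsOK par ⟨722,23,12,1,9⟩ b79_0 s79_0 a79_0 = true := by decide +kernel
theorem c80_0 : stepsOK par ⟨722,23,12,1,9⟩ b80_0 s80_0 a80_0 = true := by decide +kernel
theorem c81_0 : stepsOK par ⟨718,23,12,1,9⟩ b81_0 s81_0 a81_0 = true := by decide +kernel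
theorem c82_0 : stepsOK par ⟨722,23,12,1,9⟩ b82_0 s82_0 a82_0 = true := by decide +kernel
theorem c83_0 : stepsOK par ⟨722,23,12,1,9⟩ b83_0 s83_0 a83_0 = true := by decide +kernel
theorem c84_0 : stepsOK par ⟨716,23,12,1,9⟩ b84_0 s84_0 a84_0 = true := by decide +kernel
theorem c85_0 : stepsOK par ⟨721,23,12,1,9⟩ b85_0 s85_0 a85_0 = true := by decide +kernel
theorem c86_0 : stepsOK par ⟨722,23,12,1,9⟩ b86_0 s86_0 a86_0 = true := by decide +kernel
theorem c87_0 : stepsOK par ⟨714,23,12,1,9⟩ b87_0 s87_0 a87_0 = true := by decide +kernel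
theorem c88_0 : stepsOK par ⟨717,23,12,1,9⟩ b88_0 s88_0 a88_0 = true := by decide +kernel
theorem c89_0 : stepsOK par ⟨720,23,12,1,9⟩ b89_0 s89_0 a89_0 = true := by decide +kernel
theorem c90_0 : stepsOK par ⟨723,23,12,1,9⟩ b90_0 s90_0 a90_0 = true := by decide +kernel
theorem c91_0 : stepsOK par ⟨720,23,12,1,9⟩ b91_0 s91_0 a91_0 = true := by decide +kernel
theorem c92_0 : stepsOK par ⟨717,23,12,1,9⟩ b92_0 s92_0 a92_0 = true := by decide +kernel

end Crest.Agent.R163.P8G
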