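import Crest.Agent.R163.Q3.D.P8G.T0_0
import Crest.Agent.R163.Q3.D.P8G.M0
import Crest.Agent.R163.Q3.D.P8G.T1_0
import Crest.Agent.R163.Q3.D.P8G.M1
import Crest.Agent.R163.Q3.D.P8G.T2_0
import Crest.Agent.R163.Q3.D.P8G.M2
import Crest.Agent.R163.Q3.D.P8G.T3_0
import Crest.Agent.R163.Q3.D.P8G.M3

set_option autoImplicit false
set_option maxRecDepth 100000
set_option linter.all false
set_option Elab.async false

namespace Crest.Agent.R163.P8G

theorem Inf.cast {a b : Box} (h : Inf par a) (e : Box.beq a b = true) : Inf par b :=
  Box.eq_of_beq e ▸ h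

theorem n92 : Inf par b92_1 :=
  Inf.empty (by decide +kernel)
theorem n92_1 : Inf par a92_1 :=
  Inf.steps hw _ b92_1 s92_1 c92_1 pt3 n92
theorem n92_0 : Inf par a92_0 :=
  Inf.steps hw _ b92_0 s92_0 c92_0 pt2.right.right.right.right.right.right.right.right.right.right.right.right.right.right.right.right.right.right.right.right.right.right.right.right.right.right.right.right.right.right.right.right (Inf.cast n92_1 (by decide +kernel))
theorem n91 : Inf par b91_0 :=
  Inf.empty (by decide +kernel)
theorem n91_0 : Inf par a91_0 :=
  Inf.steps hw _ b91_0 s91_0 c91_0 pt2.right.right.right.right.right.right.right.right.right.right.right.right.right.right.right.right.right.right.right.right.right.right.right.right.right.right.right.right.right.right.right.left n91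
theorem n90 : Inf par b90_0 :=
  Inf.empty (by decide +kernel)
theorem n90_0 : Inf par a90_0 :=
  Inf.steps hw _ b90_0 s90_0 c90_0 pt2.right.right.right.right.right.right.right.right.right.right.right.right.right.right.right.right.right.right.right.right.right.right.right.right.right.right.right.right.right.right.left n90
theorem n89 : Inf par b89_0 :=
  Inf.empty (by decide +kernel)
theorem n89_0 : Inf par a89_0 :=
  Inf.steps hw _ b89_0 s89_0 c89_0 pt2.right.right.right.right.right.right.right.right.right.right.right.right.right.right.right.right.right.right.right.right.right.right.right.right.right.right.right.right.right.left n89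
theorem n88 : Inf par b88_0 :=
  Inf.spG 7 ⟨558177080,0,0⟩ (Inf.cast n89_0 (by decide +kernel)) (Inf.cast n90_0 (by decide +kernel))
theorem n88_0 : Inf par a88_0 :=
  Inf.steps hw _ b88_0 s88_0 c88_0 pt2.right.right.right.right.right.right.right.right.right.right.right.right.right.right.right.right.right.right.right.right.right.right.right.right.right.right.right.right.left n88
theorem n87 : Inf par b87_0 :=
  Inf.spG 7 ⟨601113779,0,0⟩ (Inf.cast n88_0 (by decide +kernel)) (Inf.cast n91_0 (by decide +kernel))
theorem n87_0 : Inf par a87_0 :=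
  Inf.steps hw _ b87_0 s87_0 c87_0 pt2.right.right.right.right.right.right.right.right.right.right.right.right.right.right.right.right.right.right.right.right.right.right.right.right.right.right.right.left n87
theorem n86 : Inf par b86_0 :=
  Inf.empty (by decide +kernel)
theorem n86_0 : Inf par a86_0 :=
  Inf.steps hw _ b86_0 s86_0 c86_0 pt2.right.right.right.right.right.right.right.right.right.right.right.right.right.right.right.right.right.right.right.right.right.right.right.right.right.right.left n86
theorem n85 : Inf par b85_0 :=
  Inf.empty (by decide +kernel)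
theorem n85_0 : Inf par a85_0 :=
  Inf.steps hw _ b85_0 s85_0 c85_0 pt2.right.right.right.right.right.right.right.right.right.right.right.right.right.right.right.right.right.right.right.right.right.right.right.right.right.left n85
theorem n84 : Inf par b84_0 :=
  Inf.spG 7 ⟨472303683,0,0⟩ (Inf.cast n85_0 (by decide +kernel)) (Inf.cast n86_0 (by decide +kernel))
theorem n84_0 : Inf par a84_0 :=
  Inf.steps hw _ b84_0 s84_0 c84_0 pt2.right.right.right.right.right.right.right.right.right.right.right.right.right.right.right.right.right.right.right.right.right.right.right.right.left n84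
theorem n83 : Inf par b83_0 :=
  Inf.empty (by decide +kernel)
theorem n83_0 : Inf par a83_0 :=
  Inf.steps hw _ b83_0 s83_0 c83_0 pt2.right.right.right.right.right.right.right.right.right.right.right.right.right.right.right.right.right.right.right.right.right.right.right.left n83
theorem n82 : Inf par b82_0 :=
  Inf.empty (by decide +kernel)
theorem n82_0 : Inf par a82_0 :=
  Inf.steps hw _ b82_0 s82_0 c82_0 pt2.right.right.right.right.right.right.right.right.right.right.right.right.right.right.right.right.right.right.right.right.right.right.left n82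
theorem n81 : Inf par b81_0 :=
  Inf.spG 7 ⟨407898635,0,0⟩ (Inf.cast n82_0 (by decide +kernel)) (Inf.cast n83_0 (by decide +kernel))
theorem n81_0 : Inf par a81_0 :=
  Inf.steps hw _ b81_0 s81_0 c81_0 pt2.right.right.right.right.right.right.right.right.right.right.right.right.right.right.right.right.right.right.right.right.right.left n81
theorem n80 : Inf par b80_0 :=
  Inf.empty (by decide +kernel)
theorem n80_0 : Inf par a80_0 :=
  Inf.steps hw _ b80_0 s80_0 c80_0 pt2.right.right.right.right.right.right.right.right.right.right.right.right.right.right.right.right.right.right.right.right.left n80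
theorem n79 : Inf par b79_0 :=
  Inf.empty (by decide +kernel)
theorem n79_0 : Inf par a79_0 :=
  Inf.steps hw _ b79_0 s79_0 c79_0 pt2.right.right.right.right.right.right.right.right.right.right.right.right.right.right.right.right.right.right.right.left n79
theorem n78 : Inf par b78_0 :=
  Inf.spG 7 ⟨364961937,0,0⟩ (Inf.cast n79_0 (by decide +kernel)) (Inf.cast n80_0 (by decide +kernel))
theorem n78_0 : Inf par a78_0 :=
  Inf.steps hw _ b78_0 s78_0 c78_0 pt2.right.right.right.right.right.right.right.right.right.right.right.right.right.right.right.right.right.right.left n78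
theorem n77 : Inf par b77_0 :=
  Inf.spG 7 ⟨386430286,0,0⟩ (Inf.cast n78_0 (by decide +kernel)) (Inf.cast n81_0 (by decide +kernel))
theorem n77_0 : Inf par a77_0 :=
  Inf.steps hw _ b77_0 s77_0 c77_0 pt2.right.right.right.right.right.right.right.right.right.right.right.right.right.right.right.right.right.left n77
theorem n76 : Inf par b76_0 :=
  Inf.spG 7 ⟨429366985,0,0⟩ (Inf.cast n77_0 (by decide +kernel)) (Inf.cast n84_0 (by decide +kernel))
theorem n76_0 : Inf par a76_0 :=
  Inf.steps hw _ b76_0 s76_0 c76_0 pt2.right.right.right.right.right.right.right.right.right.right.right.right.right.right.right.right.left n76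
theorem n75 : Inf par b75_0 :=
  Inf.spG 7 ⟨515240382,0,0⟩ (Inf.cast n76_0 (by decide +kernel)) (Inf.cast n87_0 (by decide +kernel))
theorem n75_0 : Inf par a75_0 :=
  Inf.steps hw _ b75_0 s75_0 c75_0 pt2.right.right.right.right.right.right.right.right.right.right.right.right.right.right.right.left n75
theorem n74 : Inf par b74_0 :=
  Inf.empty (by decide +kernel)
theorem n74_0 : Inf par a74_0 :=
  Inf.steps hw _ b74_0 s74_0 c74_0 pt2.right.right.right.right.right.right.right.right.right.right.right.right.right.right.left n74
theorem n73 : Inf par b73_0 :=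
  Inf.empty (by decide +kernel)
theorem n73_0 : Inf par a73_0 :=
  Inf.steps hw _ b73_0 s73_0 c73_0 pt2.right.right.right.right.right.right.right.right.right.right.right.right.right.left n73
theorem n72 : Inf par b72_0 :=
  Inf.spG 7 ⟨322380241,0,0⟩ (Inf.cast n73_0 (by decide +kernel)) (Inf.cast n74_0 (by decide +kernel))
theorem n72_0 : Inf par a72_0 :=
  Inf.steps hw _ b72_0 s72_0 c72_0 pt2.right.right.right.right.right.right.right.right.right.right.right.right.left n72
theorem n71 : Inf par b71_0 :=
  Inf.empty (by decide +kernel)
theorem n71_0 : Inf par a71_0 :=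
  Inf.steps hw _ b71_0 s71_0 c71_0 pt2.right.right.right.right.right.right.right.right.right.right.right.left n71
theorem n70 : Inf par b70_0 :=
  Inf.empty (by decide +kernel)
theorem n70_0 : Inf par a70_0 :=
  Inf.steps hw _ b70_0 s70_0 c70_0 pt2.right.right.right.right.right.right.right.right.right.right.left n70
theorem n69 : Inf par b69_0 :=
  Inf.empty (by decide +kernel)
theorem n69_0 : Inf par a69_0 :=
  Inf.steps hw _ b69_0 s69_0 c69_0 pt2.right.right.right.right.right.right.right.right.right.left n69
theorem n68 : Inf par b68_0 :=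
  Inf.spG 7 ⟨267410755,0,0⟩ (Inf.cast n69_0 (by decide +kernel)) (Inf.cast n70_0 (by decide +kernel))
theorem n68_0 : Inf par a68_0 :=
  Inf.steps hw _ b68_0 s68_0 c68_0 pt2.right.right.right.right.right.right.right.right.left n68
theorem n67 : Inf par b67_0 :=
  Inf.spG 7 ⟨280153549,0,0⟩ (Inf.cast n68_0 (by decide +kernel)) (Inf.cast n71_0 (by decide +kernel))
theorem n67_0 : Inf par a67_0 :=
  Inf.steps hw _ b67_0 s67_0 c67_0 pt2.right.right.right.right.right.right.right.left n67
theorem n66 : Inf par b66_0 :=
  Inf.spG 7 ⟨301266895,0,0⟩ (Inf.cast n67_0 (by decide +kernel)) (Inf.cast n72_0 (by decide +kernel))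
theorem n66_0 : Inf par a66_0 :=
  Inf.steps hw _ b66_0 s66_0 c66_0 pt2.right.right.right.right.right.right.left n66
theorem n65 : Inf par b65_0 :=
  Inf.empty (by decide +kernel)
theorem n65_0 : Inf par a65_0 :=
  Inf.steps hw _ b65_0 s65_0 c65_0 pt2.right.right.right.right.right.left n65
theorem n64 : Inf par b64_0 :=
  Inf.empty (by decide +kernel)
theorem n64_0 : Inf par a64_0 :=
  Inf.steps hw _ b64_0 s64_0 c64_0 pt2.right.right.right.right.left n64
theorem n63 : Inf par b63_0 :=
  Inf.spG 7 ⟨248483530,0,0⟩ (Inf.cast n64_0 (by decide +kernel)) (Inf.cast n65_0 (by decide +kernel))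
theorem n63_0 : Inf par a63_0 :=
  Inf.steps hw _ b63_0 s63_0 c63_0 pt2.right.right.right.left n63
theorem n62 : Inf par b62_0 :=
  Inf.empty (by decide +kernel)
theorem n62_0 : Inf par a62_0 :=
  Inf.steps hw _ b62_0 s62_0 c62_0 pt2.right.right.left n62
theorem n61 : Inf par b61_0 :=
  Inf.empty (by decide +kernel)
theorem n61_0 : Inf par a61_0 :=
  Inf.steps hw _ b61_0 s61_0 c61_0 pt2.right.left n61
theorem n60 : Inf par b60_0 :=
  Inf.spG 7 ⟨227370184,0,0⟩ (Inf.cast n61_0 (by decide +kernel)) (Inf.cast n62_0 (by decide +kernel))
theorem n60_0 : Inf par a60_0 :=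
  Inf.steps hw _ b60_0 s60_0 c60_0 pt2.left n60
theorem n59 : Inf par b59_0 :=
  Inf.spG 7 ⟨237926857,0,0⟩ (Inf.cast n60_0 (by decide +kernel)) (Inf.cast n63_0 (by decide +kernel))
theorem n59_0 : Inf par a59_0 :=
  Inf.steps hw _ b59_0 s59_0 c59_0 pt1.right.right.right.right.right.right.right.right.right.right.right.right.right.right.right.right.right.right.right.right.right.right.right.right.right.right.right.right.right n59
theorem n58 : Inf par b58_0 :=
  Inf.empty (by decide +kernel)
theorem n58_0 : Inf par a58_0 :=
  Inf.steps hw _ b58_0 s58_0 c58_0 pt1.right.right.right.right.right.right.right.right.right.right.right.right.right.right.right.right.right.right.right.right.right.right.right.right.right.right.right.right.left n58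
theorem n57 : Inf par b57_0 :=
  Inf.empty (by decide +kernel)
theorem n57_0 : Inf par a57_0 :=
  Inf.steps hw _ b57_0 s57_0 c57_0 pt1.right.right.right.right.right.right.right.right.right.right.right.right.right.right.right.right.right.right.right.right.right.right.right.right.right.right.right.left n57
theorem n56 : Inf par b56_0 :=
  Inf.spG 7 ⟨206256838,0,0⟩ (Inf.cast n57_0 (by decide +kernel)) (Inf.cast n58_0 (by decide +kernel))
theorem n56_0 : Inf par a56_0 :=
  Inf.steps hw _ b56_0 s56_0 c56_0 pt1.right.right.right.right.right.right.right.right.right.right.right.right.right.right.right.right.right.right.right.right.right.right.right.right.right.right.left n56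
theorem n55 : Inf par b55_0 :=
  Inf.empty (by decide +kernel)
theorem n55_0 : Inf par a55_0 :=
  Inf.steps hw _ b55_0 s55_0 c55_0 pt1.right.right.right.right.right.right.right.right.right.right.right.right.right.right.right.right.right.right.right.right.right.right.right.right.right.left n55
theorem n54 : Inf par b54_0 :=
  Inf.empty (by decide +kernel)
theorem n54_0 : Inf par a54_0 :=
  Inf.steps hw _ b54_0 s54_0 c54_0 pt1.right.right.right.right.right.right.right.right.right.right.right.right.right.right.right.right.right.right.right.right.right.right.right.right.left n54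
theorem n53 : Inf par b53_0 :=
  Inf.spG 7 ⟨185143492,0,0⟩ (Inf.cast n54_0 (by decide +kernel)) (Inf.cast n55_0 (by decide +kernel))
theorem n53_0 : Inf par a53_0 :=
  Inf.steps hw _ b53_0 s53_0 c53_0 pt1.right.right.right.right.right.right.right.right.right.right.right.right.right.right.right.right.right.right.right.right.right.right.right.left n53
theorem n52 : Inf par b52_0 :=
  Inf.spG 7 ⟨195700165,0,0⟩ (Inf.cast n53_0 (by decide +kernel)) (Inf.cast n56_0 (by decide +kernel))
theorem n52_0 : Inf par a52_0 :=
  Inf.steps hw _ b52_0 s52_0 c52_0 pt1.right.right.right.right.right.right.right.right.right.right.right.right.right.right.right.right.right.right.right.right.right.right.left n52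
theorem n51 : Inf par b51_0 :=
  Inf.spG 7 ⟨216813511,0,0⟩ (Inf.cast n52_0 (by decide +kernel)) (Inf.cast n59_0 (by decide +kernel))
theorem n51_0 : Inf par a51_0 :=
  Inf.steps hw _ b51_0 s51_0 c51_0 pt1.right.right.right.right.right.right.right.right.right.right.right.right.right.right.right.right.right.right.right.right.right.left n51
theorem n50 : Inf par b50_0 :=
  Inf.spG 7 ⟨259040203,0,0⟩ (Inf.cast n51_0 (by decide +kernel)) (Inf.cast n66_0 (by decide +kernel))
theorem n50_0 : Inf par a50_0 :=
  Inf.steps hw _ b50_0 s50_0 c50_0 pt1.right.right.right.right.right.right.right.right.right.right.right.right.right.right.right.right.right.right.right.right.left n50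
theorem n49 : Inf par b49_0 :=
  Inf.empty (by decide +kernel)
theorem n49_0 : Inf par a49_0 :=
  Inf.steps hw _ b49_0 s49_0 c49_0 pt1.right.right.right.right.right.right.right.right.right.right.right.right.right.right.right.right.right.right.right.left n49
theorem n48 : Inf par b48_0 :=
  Inf.empty (by decide +kernel)
theorem n48_0 : Inf par a48_0 :=
  Inf.steps hw _ b48_0 s48_0 c48_0 pt1.right.right.right.right.right.right.right.right.right.right.right.right.right.right.right.right.right.right.left n48
theorem n47 : Inf par b47_0 :=
  Inf.spG 7 ⟨164972353,0,0⟩ (Inf.cast n48_0 (by decide +kernel)) (Inf.cast n49_0 (by decide +kernel))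
theorem n47_0 : Inf par a47_0 :=
  Inf.steps hw _ b47_0 s47_0 c47_0 pt1.right.right.right.right.right.right.right.right.right.right.right.right.right.right.right.right.right.left n47
theorem n46 : Inf par b46_0 :=
  Inf.empty (by decide +kernel)
theorem n46_0 : Inf par a46_0 :=
  Inf.steps hw _ b46_0 s46_0 c46_0 pt1.right.right.right.right.right.right.right.right.right.right.right.right.right.right.right.right.left n46
theorem n45 : Inf par b45_0 :=
  Inf.empty (by decide +kernel)
theorem n45_0 : Inf par a45_0 :=
  Inf.steps hw _ b45_0 s45_0 c45_0 pt1.right.right.right.right.right.right.right.right.right.right.right.right.right.right.right.left n45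
theorem n44 : Inf par b44_0 :=
  Inf.spG 7 ⟨142803512,0,0⟩ (Inf.cast n45_0 (by decide +kernel)) (Inf.cast n46_0 (by decide +kernel))
theorem n44_0 : Inf par a44_0 :=
  Inf.steps hw _ b44_0 s44_0 c44_0 pt1.right.right.right.right.right.right.right.right.right.right.right.right.right.right.left n44
theorem n43 : Inf par b43_0 :=
  Inf.spG 7 ⟨153887933,0,0⟩ (Inf.cast n44_0 (by decide +kernel)) (Inf.cast n47_0 (by decide +kernel))
theorem n43_0 : Inf par a43_0 :=
  Inf.steps hw _ b43_0 s43_0 c43_0 pt1.right.right.right.right.right.right.right.right.right.right.right.right.right.left n43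
theorem n42 : Inf par b42_0 :=
  Inf.empty (by decide +kernel)
theorem n42_0 : Inf par a42_0 :=
  Inf.steps hw _ b42_0 s42_0 c42_0 pt1.right.right.right.right.right.right.right.right.right.right.right.right.left n42
theorem n41 : Inf par b41_0 :=
  Inf.empty (by decide +kernel)
theorem n41_0 : Inf par a41_0 :=
  Inf.steps hw _ b41_0 s41_0 c41_0 pt1.right.right.right.right.right.right.right.right.right.right.right.left n41
theorem n40 : Inf par b40_0 :=
  Inf.empty (by decide +kernel)
theorem n40_0 : Inf par a40_0 :=
  Inf.steps hw _ b40_0 s40_0 c40_0 pt1.right.right.right.right.right.right.right.right.right.right.left n40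
theorem n39 : Inf par b39_0 :=
  Inf.spG 3 ⟨71019832,0,0⟩ (Inf.cast n40_0 (by decide +kernel)) (Inf.cast n41_0 (by decide +kernel))
theorem n39_0 : Inf par a39_0 :=
  Inf.steps hw _ b39_0 s39_0 c39_0 pt1.right.right.right.right.right.right.right.right.right.left n39
theorem n38 : Inf par b38_0 :=
  Inf.spG 7 ⟨120771675,0,0⟩ (Inf.cast n39_0 (by decide +kernel)) (Inf.cast n42_0 (by decide +kernel))
theorem n38_0 : Inf par a38_0 :=
  Inf.steps hw _ b38_0 s38_0 c38_0 pt1.right.right.right.right.right.right.right.right.left n38
theorem n37 : Inf par b37_0 :=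
  Inf.empty (by decide +kernel)
theorem n37_0 : Inf par a37_0 :=
  Inf.steps hw _ b37_0 s37_0 c37_0 pt1.right.right.right.right.right.right.right.left n37
theorem n36 : Inf par b36_0 :=
  Inf.empty (by decide +kernel)
theorem n36_0 : Inf par a36_0 :=
  Inf.steps hw _ b36_0 s36_0 c36_0 pt1.right.right.right.right.right.right.left n36
theorem n35 : Inf par b35_0 :=
  Inf.spG 3 ⟨64443101,0,0⟩ (Inf.cast n36_0 (by decide +kernel)) (Inf.cast n37_0 (by decide +kernel))
theorem n35_0 : Inf par a35_0 :=
  Inf.steps hw _ b35_0 s35_0 c35_0 pt1.right.right.right.right.right.left n35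
theorem n34 : Inf par b34_0 :=
  Inf.empty (by decide +kernel)
theorem n34_0 : Inf par a34_0 :=
  Inf.steps hw _ b34_0 s34_0 c34_0 pt1.right.right.right.right.left n34
theorem n33 : Inf par b33_0 :=
  Inf.empty (by decide +kernel)
theorem n33_0 : Inf par a33_0 :=
  Inf.steps hw _ b33_0 s33_0 c33_0 pt1.right.right.right.left n33
theorem n32 : Inf par b32_0 :=
  Inf.spG 3 ⟨57390367,0,0⟩ (Inf.cast n33_0 (by decide +kernel)) (Inf.cast n34_0 (by decide +kernel))
theorem n32_0 : Inf par a32_0 :=
  Inf.steps hw _ b32_0 s32_0 c32_0 pt1.right.right.left n32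
theorem n31 : Inf par b31_0 :=
  Inf.spG 7 ⟨98616516,0,0⟩ (Inf.cast n32_0 (by decide +kernel)) (Inf.cast n35_0 (by decide +kernel))
theorem n31_0 : Inf par a31_0 :=
  Inf.steps hw _ b31_0 s31_0 c31_0 pt1.right.left n31
theorem n30 : Inf par b30_0 :=
  Inf.spG 7 ⟨109694096,0,0⟩ (Inf.cast n31_0 (by decide +kernel)) (Inf.cast n38_0 (by decide +kernel))
theorem n30_0 : Inf par a30_0 :=
  Inf.steps hw _ b30_0 s30_0 c30_0 pt1.left n30
theorem n29 : Inf par b29_0 :=
  Inf.spG 5 ⟨118205412,0,0⟩ (Inf.cast n30_0 (by decide +kernel)) (Inf.cast n43_0 (by decide +kernel))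
theorem n29_0 : Inf par a29_0 :=
  Inf.steps hw _ b29_0 s29_0 c29_0 pt0.right.right.right.right.right.right.right.right.right.right.right.right.right.right.right.right.right.right.right.right.right.right.right.right.right.right.right.right.right n29
theorem n28 : Inf par b28_0 :=
  Inf.empty (by decide +kernel)
theorem n28_0 : Inf par a28_0 :=
  Inf.steps hw _ b28_0 s28_0 c28_0 pt0.right.right.right.right.right.right.right.right.right.right.right.right.right.right.right.right.right.right.right.right.right.right.right.right.right.right.right.right.left n28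
theorem n27 : Inf par b27_0 :=
  Inf.empty (by decide +kernel)
theorem n27_0 : Inf par a27_0 :=
  Inf.steps hw _ b27_0 s27_0 c27_0 pt0.right.right.right.right.right.right.right.right.right.right.right.right.right.right.right.right.right.right.right.right.right.right.right.right.right.right.right.left n27
theorem n26 : Inf par b26_0 :=
  Inf.spG 3 ⟨49991358,0,0⟩ (Inf.cast n27_0 (by decide +kernel)) (Inf.cast n28_0 (by decide +kernel))
theorem n26_0 : Inf par a26_0 :=
  Inf.steps hw _ b26_0 s26_0 c26_0 pt0.right.right.right.right.right.right.right.right.right.right.right.right.right.right.right.right.right.right.right.right.right.right.right.right.right.right.left n26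
theorem n25 : Inf par b25_0 :=
  Inf.empty (by decide +kernel)
theorem n25_0 : Inf par a25_0 :=
  Inf.steps hw _ b25_0 s25_0 c25_0 pt0.right.right.right.right.right.right.right.right.right.right.right.right.right.right.right.right.right.right.right.right.right.right.right.right.right.left n25
theorem n24 : Inf par b24_0 :=
  Inf.empty (by decide +kernel)
theorem n24_0 : Inf par a24_0 :=
  Inf.steps hw _ b24_0 s24_0 c24_0 pt0.right.right.right.right.right.right.right.right.right.right.right.right.right.right.right.right.right.right.right.right.right.right.right.right.left n24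
theorem n23 : Inf par b23_0 :=
  Inf.empty (by decide +kernel)
theorem n23_0 : Inf par a23_0 :=
  Inf.steps hw _ b23_0 s23_0 c23_0 pt0.right.right.right.right.right.right.right.right.right.right.right.right.right.right.right.right.right.right.right.right.right.right.right.left n23
theorem n22 : Inf par b22_0 :=
  Inf.spG 7 ⟨64075337,0,0⟩ (Inf.cast n23_0 (by decide +kernel)) (Inf.cast n24_0 (by decide +kernel))
theorem n22_0 : Inf par a22_0 :=
  Inf.steps hw _ b22_0 s22_0 c22_0 pt0.right.right.right.right.right.right.right.right.right.right.right.right.right.right.right.right.right.right.right.right.right.right.left n22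
theorem n21 : Inf par b21_0 :=
  Inf.spG 3 ⟨41780167,0,0⟩ (Inf.cast n22_0 (by decide +kernel)) (Inf.cast n25_0 (by decide +kernel))
theorem n21_0 : Inf par a21_0 :=
  Inf.steps hw _ b21_0 s21_0 c21_0 pt0.right.right.right.right.right.right.right.right.right.right.right.right.right.right.right.right.right.right.right.right.right.left n21
theorem n20 : Inf par b20_0 :=
  Inf.spG 7 ⟨74299731,0,0⟩ (Inf.cast n21_0 (by decide +kernel)) (Inf.cast n26_0 (by decide +kernel))
theorem n20_0 : Inf par a20_0 :=
  Inf.steps hw _ b20_0 s20_0 c20_0 pt0.right.right.right.right.right.right.right.right.right.right.right.right.right.right.right.right.right.right.right.right.left n20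
theorem n19 : Inf par b19_0 :=
  Inf.empty (by decide +kernel)
theorem n19_0 : Inf par a19_0 :=
  Inf.steps hw _ b19_0 s19_0 c19_0 pt0.right.right.right.right.right.right.right.right.right.right.right.right.right.right.right.right.right.right.right.left n19
theorem n18 : Inf par b18_0 :=
  Inf.empty (by decide +kernel)
theorem n18_0 : Inf par a18_0 :=
  Inf.steps hw _ b18_0 s18_0 c18_0 pt0.right.right.right.right.right.right.right.right.right.right.right.right.right.right.right.right.right.right.left n18
theorem n17 : Inf par b17_0 :=
  Inf.spG 7 ⟨57967492,0,0⟩ (Inf.cast n18_0 (by decide +kernel)) (Inf.cast n19_0 (by decide +kernel))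
theorem n17_0 : Inf par a17_0 :=
  Inf.steps hw _ b17_0 s17_0 c17_0 pt0.right.right.right.right.right.right.right.right.right.right.right.right.right.right.right.right.right.left n17
theorem n16 : Inf par b16_0 :=
  Inf.empty (by decide +kernel)
theorem n16_0 : Inf par a16_0 :=
  Inf.steps hw _ b16_0 s16_0 c16_0 pt0.right.right.right.right.right.right.right.right.right.right.right.right.right.right.right.right.left n16
theorem n15 : Inf par b15_0 :=
  Inf.empty (by decide +kernel)
theorem n15_0 : Inf par a15_0 :=
  Inf.steps hw _ b15_0 s15_0 c15_0 pt0.right.right.right.right.right.right.right.right.right.right.right.right.right.right.right.left n15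
theorem n14 : Inf par b14_0 :=
  Inf.spG 7 ⟨50762809,0,0⟩ (Inf.cast n15_0 (by decide +kernel)) (Inf.cast n16_0 (by decide +kernel))
theorem n14_0 : Inf par a14_0 :=
  Inf.steps hw _ b14_0 s14_0 c14_0 pt0.right.right.right.right.right.right.right.right.right.right.right.right.right.right.left n14
theorem n13 : Inf par b13_0 :=
  Inf.spG 3 ⟨33569786,0,0⟩ (Inf.cast n14_0 (by decide +kernel)) (Inf.cast n17_0 (by decide +kernel))
theorem n13_0 : Inf par a13_0 :=
  Inf.steps hw _ b13_0 s13_0 c13_0 pt0.right.right.right.right.right.right.right.right.right.right.right.right.right.left n13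
theorem n12 : Inf par b12_0 :=
  Inf.empty (by decide +kernel)
theorem n12_0 : Inf par a12_0 :=
  Inf.steps hw _ b12_0 s12_0 c12_0 pt0.right.right.right.right.right.right.right.right.right.right.right.right.left n12
theorem n11 : Inf par b11_0 :=
  Inf.empty (by decide +kernel)
theorem n11_0 : Inf par a11_0 :=
  Inf.steps hw _ b11_0 s11_0 c11_0 pt0.right.right.right.right.right.right.right.right.right.right.right.left n11
theorem n10 : Inf par b10_0 :=
  Inf.spG 3 ⟨27369979,0,0⟩ (Inf.cast n11_0 (by decide +kernel)) (Inf.cast n12_0 (by decide +kernel))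
theorem n10_0 : Inf par a10_0 :=
  Inf.steps hw _ b10_0 s10_0 c10_0 pt0.right.right.right.right.right.right.right.right.right.right.left n10
theorem n9 : Inf par b9_0 :=
  Inf.empty (by decide +kernel)
theorem n9_0 : Inf par a9_0 :=
  Inf.steps hw _ b9_0 s9_0 c9_0 pt0.right.right.right.right.right.right.right.right.right.left n9
theorem n8 : Inf par b8_0 :=
  Inf.empty (by decide +kernel)
theorem n8_0 : Inf par a8_0 :=
  Inf.steps hw _ b8_0 s8_0 c8_0 pt0.right.right.right.right.right.right.right.right.left n8
theorem n7 : Inf par b7_0 :=
  Inf.spG 7 ⟨37584432,0,0⟩ (Inf.cast n8_0 (by decide +kernel)) (Inf.cast n9_0 (by decide +kernel))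
theorem n7_0 : Inf par a7_0 :=
  Inf.steps hw _ b7_0 s7_0 c7_0 pt0.right.right.right.right.right.right.right.left n7
theorem n6 : Inf par b6_0 :=
  Inf.spG 7 ⟨40922186,0,0⟩ (Inf.cast n7_0 (by decide +kernel)) (Inf.cast n10_0 (by decide +kernel))
theorem n6_0 : Inf par a6_0 :=
  Inf.steps hw _ b6_0 s6_0 c6_0 pt0.right.right.right.right.right.right.left n6
theorem n5 : Inf par b5_0 :=
  Inf.spG 7 ⟨47597695,0,0⟩ (Inf.cast n6_0 (by decide +kernel)) (Inf.cast n13_0 (by decide +kernel))
theorem n5_0 : Inf par a5_0 :=
  Inf.steps hw _ b5_0 s5_0 c5_0 pt0.right.right.right.right.right.left n5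
theorem n4 : Inf par b4_0 :=
  Inf.spG 7 ⟨60948713,0,0⟩ (Inf.cast n5_0 (by decide +kernel)) (Inf.cast n20_0 (by decide +kernel))
theorem n4_0 : Inf par a4_0 :=
  Inf.steps hw _ b4_0 s4_0 c4_0 pt0.right.right.right.right.left n4
theorem n3 : Inf par b3_0 :=
  Inf.spG 5 ⟨78803608,0,0⟩ (Inf.cast n4_0 (by decide +kernel)) (Inf.cast n29_0 (by decide +kernel))
theorem n3_0 : Inf par a3_0 :=
  Inf.steps hw _ b3_0 s3_0 c3_0 pt0.right.right.right.left n3
theorem n2 : Inf par b2_0 :=
  Inf.spG 4 ⟨141002700,0,0⟩ (Inf.cast n3_0 (by decide +kernel)) (Inf.cast n50_0 (by decide +kernel))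
theorem n2_0 : Inf par a2_0 :=
  Inf.steps hw _ b2_0 s2_0 c2_0 pt0.right.right.left n2
theorem n1 : Inf par b1_0 :=
  Inf.spG 7 ⟨343493588,0,0⟩ (Inf.cast n2_0 (by decide +kernel)) (Inf.cast n75_0 (by decide +kernel))
theorem n1_0 : Inf par a1_0 :=
  Inf.steps hw _ b1_0 s1_0 c1_0 pt0.right.left n1
theorem n0 : Inf par b0_0 :=
  Inf.spG 5 ⟨604307361,0,0⟩ (Inf.cast n1_0 (by decide +kernel)) (Inf.cast n92_0 (by decide +kernel))
theorem n0_0 : Inf par a0_0 :=
  Inf.steps hw _ b0_0 s0_0 c0_0 pt0.left n0

theorem main : Inf par (box0 par 901 16384) :=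
  Inf.cast n0_0 (by decide +kernel)

end Crest.Agent.R163.P8G
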