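import Crest.Agent.R163.Q3.D.P8G.S0
import Crest.Agent.R163.Q3.D.P8G.H

set_option autoImplicit false
set_option maxRecDepth 100000
set_option linter.all false
set_option Elab.async false

namespace Crest.Agent.R163.P8G

theorem p0_0_0 : Ok par f0 Box3.unit (selB 1 C0 127314748520904928078929272259172652568180163637318392068459385845025837509308272431071215) :=
  Ok.run hw hf0 ⟨241,25,25,1,10⟩ 59
    (.chk false 0)
    (by decide +kernel)

theorem p0_0_1 : Ok par f0 Box3.unit (selB 0 C0 127314748520904928078929272259172652568180163637318392068459385845025837509308272431071215) :=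
  Ok.run hw hf0 ⟨412,25,25,1,10⟩ 59
    (.split 0 (.part 536870875 (.chk false 0) (.split 0 (.chk false 0) (.part 1 (.chk false 0) (.split 0 (.chk false 0) (.split 0 (.chk false 0) (.chk false 0)))))) (.part 520470893 (.chk false 0) (.split 0 (.part 259 (.chk false 0) (.split 0 (.part 1471 (.chk false 0) (.split 0 (.chk false 0) (.chk false 0))) (.part 975 (.chk false 0) (.split 0 (.part 2 (.chk false 0) (.split 0 (.part 2 (.chk false 0) (.split 1 (.chk false 0) (.chk false 0))) (.chk false 0))) (.part 5 (.chk false 0) (.split 1 (.split 0 (.chk false 0) (.chk false 0)) (.chk false 0))))))) (.part 16127 (.chk false 0) (.split 0 (.chk false 0) (.chk false 0))))))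
    (by decide +kernel)

theorem p0_1_0 : Ok par f1 ((((Box3.unit.r 0).l 0).l 0).l 1) (selB 0 (selB 0 (selB 0 (selB 0 C0 95486061390678870096948934658490905738263935913981235697984009926766607059168523601051631) 15951384986526307475873206375068729887) 1297967986293603314885292430721026) 604462756207755314481172) :=
  Ok.run hw hf1 ⟨459,25,25,1,10⟩ 59
    (.part 1034682359 (.chk false 0) (.split 0 (.chk false 0) (.part 1 (.chk false 0) (.split 0 (.part 13 (.chk false 0) (.split 0 (.chk false 0) (.chk false 0))) (.part 10 (.chk false 0) (.split 0 (.chk false 0) (.part 1 (.chk false 0) (.split 1 (.chk false 0) (.chk false 0)))))))))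
    (by decide +kernel)

theorem p0_1_1 : Ok par f1 ((((Box3.unit.r 0).l 0).l 0).r 1) (selB 0 (selB 0 (selB 0 (selB 0 C0 95486061390678870096948934658490905738263935913981235697984009926766607059168523601051631) 15951384986526307475873206375068729887) 1297967986293603314885292430721026) 604462756207755314481172) :=
  Ok.run hw hf1 ⟨486,25,25,1,10⟩ 59
    (.part 38141952 (.chk false 0) (.split 0 (.part 67092067 (.chk false 0) (.split 1 (.part 61 (.chk false 0) (.split 0 (.chk false 0) (.chk false 0))) (.part 16 (.chk false 0) (.split 0 (.part 15 (.chk false 0) (.split 1 (.chk false 0) (.split 0 (.chk false 0) (.chk false 0)))) (.part 23 (.chk false 0) (.split 1 (.chk false 0) (.chk false 0))))))) (.part 38552605 (.chk false 0) (.split 1 (.chk false 0) (.part 2649 (.chk false 0) (.split 0 (.chk false 0) (.part 335 (.chk false 0) (.split 1 (.chk false 0) (.part 2 (.chk false 0) (.split 0 (.chk false 0) (.chk false 0)))))))))))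
    (by decide +kernel)

theorem p0_1_2 : Ok par f1 (((Box3.unit.r 0).l 0).l 0) (selB 1 (selB 0 (selB 0 (selB 0 C0 95486061390678870096948934658490905738263935913981235697984009926766607059168523601051631) 15951384986526307475873206375068729887) 1297967986293603314885292430721026) 604462756207755314481172) :=
  Ok.run hw hf1 ⟨317,25,25,1,10⟩ 59
    (.chk false 0)
    (by decide +kernel)

theorem p0_1_3 : Ok par f1 ((((((Box3.unit.r 0).l 0).r 0).r 1).r 1).l 0) (selB 0 (selB 0 (selB 0 (selB 0 (selB 0 (selB 0 C0 95486061390678870096948934658490905738263935913981235697984009926766607059168523601051631) 15951384986526307475873206375068729887) 1297967986293603314885292430721026) 389211012065259) 1125901048774728) 8519680) :=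
  Ok.run hw hf1 ⟨537,25,25,1,10⟩ 59
    (.part 8782497163761 (.chk false 0) (.split 0 (.part 15221 (.chk false 0) (.split 1 (.chk false 0) (.part 8 (.chk false 0) (.split 0 (.chk false 0) (.part 2 (.chk false 0) (.split 1 (.chk false 0) (.split 0 (.chk false 0) (.chk false 0)))))))) (.part 16361 (.chk false 0) (.split 1 (.chk false 0) (.part 3 (.chk false 0) (.split 1 (.chk false 0) (.split 0 (.chk false 0) (.chk false 0))))))))
    (by decide +kernel)

theorem p0_1_4 : Ok par f1 ((((((Box3.unit.r 0).l 0).r 0).r 1).r 1).r 0) (selB 0 (selB 0 (selB 0 (selB 0 (selB 0 (selB 0 C0 95486061390678870096948934658490905738263935913981235697984009926766607059168523601051631) 15951384986526307475873206375068729887) 1297967986293603314885292430721026) 389211012065259) 1125901048774728) 8519680) :=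
  Ok.run hw hf1 ⟨517,25,25,1,10⟩ 59
    (.part 4171192760031 (.chk false 0) (.split 1 (.chk false 0) (.split 0 (.part 32179 (.chk false 0) (.split 1 (.chk false 0) (.split 0 (.chk false 0) (.chk false 0)))) (.part 32717 (.chk false 0) (.split 1 (.chk false 0) (.part 1 (.chk false 0) (.split 0 (.chk false 0) (.chk false 0))))))))
    (by decide +kernel)

theorem p0_1_5 : Ok par f1 (((((Box3.unit.r 0).l 0).r 0).r 1).r 1) (selB 1 (selB 0 (selB 0 (selB 0 (selB 0 (selB 0 C0 95486061390678870096948934658490905738263935913981235697984009926766607059168523601051631) 15951384986526307475873206375068729887) 1297967986293603314885292430721026) 389211012065259) 1125901048774728) 8519680) :=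
  Ok.run hw hf1 ⟨391,25,25,1,10⟩ 59
    (.chk false 0)
    (by decide +kernel)

theorem p0_1_6 : Ok par f1 (((((Box3.unit.r 0).l 0).r 0).r 1).l 1) (selB 0 (selB 0 (selB 0 (selB 0 (selB 0 C0 95486061390678870096948934658490905738263935913981235697984009926766607059168523601051631) 15951384986526307475873206375068729887) 1297967986293603314885292430721026) 389211012065259) 1125901048774728) :=
  Ok.run hw hf1 ⟨405,25,25,1,10⟩ 59
    (.part 35184372088830 (.chk false 0) (.split 0 (.chk false 0) (.chk false 0)))
    (by decide +kernel)

theorem p0_1_7 : Ok par f1 ((((Box3.unit.r 0).l 0).r 0).r 1) (selB 1 (selB 0 (selB 0 (selB 0 (selB 0 C0 95486061390678870096948934658490905738263935913981235697984009926766607059168523601051631) 15951384986526307475873206375068729887) 1297967986293603314885292430721026) 389211012065259) 1125901048774728) :=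
  Ok.run hw hf1 ⟨362,25,25,1,10⟩ 59
    (.chk false 0)
    (by decide +kernel)

theorem p0_1_8 : Ok par f1 ((((Box3.unit.r 0).l 0).r 0).l 1) (selB 0 (selB 0 (selB 0 (selB 0 C0 95486061390678870096948934658490905738263935913981235697984009926766607059168523601051631) 15951384986526307475873206375068729887) 1297967986293603314885292430721026) 389211012065259) :=
  Ok.run hw hf1 ⟨362,25,25,1,10⟩ 59
    (.chk false 0)
    (by decide +kernel)

theorem p0_1_9 : Ok par f1 (((Box3.unit.r 0).l 0).r 0) (selB 1 (selB 0 (selB 0 (selB 0 C0 95486061390678870096948934658490905738263935913981235697984009926766607059168523601051631) 15951384986526307475873206375068729887) 1297967986293603314885292430721026) 389211012065259) :=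
  Ok.run hw hf1 ⟨324,25,25,1,10⟩ 59
    (.chk false 0)
    (by decide +kernel)

theorem p0_1_10 : Ok par f1 ((Box3.unit.r 0).l 0) (selB 1 (selB 0 (selB 0 C0 95486061390678870096948934658490905738263935913981235697984009926766607059168523601051631) 15951384986526307475873206375068729887) 1297967986293603314885292430721026) :=
  Ok.run hw hf1 ⟨296,25,25,1,10⟩ 59
    (.chk false 0)
    (by decide +kernel)

theorem p0_1_11 : Ok par f1 ((((Box3.unit.r 0).r 0).r 1).l 0) (selB 0 (selB 0 (selB 0 (selB 0 C0 95486061390678870096948934658490905738263935913981235697984009926766607059168523601051631) 15951384986526307475873206375068729887) 85802367234242996683392679933) 400) :=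
  Ok.run hw hf1 ⟨567,25,25,1,10⟩ 59
    (.part 8512638721 (.chk false 0) (.split 1 (.chk false 0) (.part 1 (.chk false 0) (.split 0 (.part 31320 (.chk false 0) (.split 1 (.chk false 0) (.split 0 (.part 119 (.chk false 0) (.split 1 (.chk false 0) (.split 0 (.split 1 (.chk false 0) (.split 0 (.chk false 0) (.chk false 0))) (.chk false 0)))) (.part 122 (.chk false 0) (.split 1 (.chk false 0) (.split 0 (.chk false 0) (.chk false 0))))))) (.part 28663 (.chk false 0) (.split 1 (.chk false 0) (.split 0 (.chk false 0) (.part 1 (.chk false 0) (.split 1 (.chk false 0) (.chk false 0))))))))))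
    (by decide +kernel)

theorem p0_1_12 : Ok par f1 ((((Box3.unit.r 0).r 0).r 1).r 0) (selB 0 (selB 0 (selB 0 (selB 0 C0 95486061390678870096948934658490905738263935913981235697984009926766607059168523601051631) 15951384986526307475873206375068729887) 85802367234242996683392679933) 400) :=
  Ok.run hw hf1 ⟨503,25,25,1,10⟩ 59
    (.part 264237567 (.chk false 0) (.split 1 (.chk false 0) (.part 1 (.chk false 0) (.split 0 (.part 119 (.chk false 0) (.split 1 (.chk false 0) (.split 0 (.chk false 0) (.chk false 0)))) (.part 141 (.chk false 0) (.split 1 (.chk false 0) (.part 1 (.chk false 0) (.split 1 (.chk false 0) (.split 0 (.chk false 0) (.chk false 0))))))))))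
    (by decide +kernel)

theorem p0_1_13 : Ok par f1 (((Box3.unit.r 0).r 0).r 1) (selB 1 (selB 0 (selB 0 (selB 0 C0 95486061390678870096948934658490905738263935913981235697984009926766607059168523601051631) 15951384986526307475873206375068729887) 85802367234242996683392679933) 400) :=
  Ok.run hw hf1 ⟨346,25,25,1,10⟩ 59
    (.chk false 0)
    (by decide +kernel)

theorem p0_1_14 : Ok par f1 (((Box3.unit.r 0).r 0).l 1) (selB 0 (selB 0 (selB 0 C0 95486061390678870096948934658490905738263935913981235697984009926766607059168523601051631) 15951384986526307475873206375068729887) 85802367234242996683392679933) :=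
  Ok.run hw hf1 ⟨346,25,25,1,10⟩ 59
    (.chk false 0)
    (by decide +kernel)

theorem p0_1_15 : Ok par f1 ((Box3.unit.r 0).r 0) (selB 1 (selB 0 (selB 0 C0 95486061390678870096948934658490905738263935913981235697984009926766607059168523601051631) 15951384986526307475873206375068729887) 85802367234242996683392679933) :=
  Ok.run hw hf1 ⟨308,25,25,1,10⟩ 59
    (.chk false 0)
    (by decide +kernel)

theorem p0_1_16 : Ok par f1 (Box3.unit.r 0) (selB 1 (selB 0 C0 95486061390678870096948934658490905738263935913981235697984009926766607059168523601051631) 15951384986526307475873206375068729887) :=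
  Ok.run hw hf1 ⟨279,25,25,1,10⟩ 59
    (.chk false 0)
    (by decide +kernel)

theorem p0_1_17 : Ok par f1 (Box3.unit.l 0) (selB 0 C0 95486061390678870096948934658490905738263935913981235697984009926766607059168523601051631) :=
  Ok.run hw hf1 ⟨308,25,25,1,10⟩ 59
    (.part 21267647932558653966460912964485512679 (.chk false 0) (.split 0 (.chk false 0) (.chk false 0)))
    (by decide +kernel)

theorem p0_1_18 : Ok par f1 Box3.unit (selB 1 C0 95486061390678870096948934658490905738263935913981235697984009926766607059168523601051631) :=
  Ok.run hw hf1 ⟨241,25,25,1,10⟩ 59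
    (.chk false 0)
    (by decide +kernel)

theorem p0_2_0 : Ok par f2 Box3.unit C0 :=
  Ok.run hw hf2 ⟨308,25,25,1,10⟩ 59
    (.part 127314748520905380391777855525586135065716774604121015664758778084648831162799080607842239 (.chk false 0) (.split 0 (.part 31 (.chk false 0) (.split 0 (.chk false 0) (.chk false 0))) (.part 59 (.chk false 0) (.split 0 (.chk false 0) (.chk false 0)))))
    (by decide +kernel)

theorem p0_3_0 : Ok par f3 ((((Box3.unit.l 0).r 1).l 0).l 1) (selB 0 (selB 0 (selB 0 (selB 0 C0 127066206422820955190411754166134705070909771157716959013487377261832504927684564961189695) 31) 9) 65552) :=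
  Ok.run hw hf3 ⟨364,25,25,1,10⟩ 59
    (.chk false 0)
    (by decide +kernel)

theorem p0_3_1 : Ok par f3 ((((Box3.unit.l 0).r 1).l 0).r 1) (selB 0 (selB 0 (selB 0 (selB 0 C0 127066206422820955190411754166134705070909771157716959013487377261832504927684564961189695) 31) 9) 65552) :=
  Ok.run hw hf3 ⟨551,25,25,1,10⟩ 59
    (.split 0 (.part 33487640 (.chk false 0) (.split 1 (.chk false 0) (.split 0 (.part 248 (.chk false 0) (.split 1 (.chk false 0) (.split 0 (.chk false 0) (.part 3 (.chk false 0) (.split 1 (.chk false 0) (.split 0 (.chk false 0) (.chk false 0))))))) (.chk false 0)))) (.part 1935359 (.chk false 0) (.split 1 (.chk false 0) (.split 0 (.part 423 (.chk false 0) (.split 1 (.chk false 0) (.split 0 (.chk false 0) (.part 1 (.chk false 0) (.split 1 (.chk false 0) (.split 0 (.chk false 0) (.chk false 0))))))) (.chk false 0)))))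
    (by decide +kernel)

theorem p0_3_2 : Ok par f3 (((Box3.unit.l 0).r 1).l 0) (selB 1 (selB 0 (selB 0 (selB 0 C0 127066206422820955190411754166134705070909771157716959013487377261832504927684564961189695) 31) 9) 65552) :=
  Ok.run hw hf3 ⟨346,25,25,1,10⟩ 59
    (.chk false 0)
    (by decide +kernel)

theorem p0_3_3 : Ok par f3 (((Box3.unit.l 0).r 1).r 0) (selB 0 (selB 0 (selB 0 C0 127066206422820955190411754166134705070909771157716959013487377261832504927684564961189695) 31) 9) :=
  Ok.run hw hf3 ⟨391,25,25,1,10⟩ 59
    (.part 134152175 (.chk false 0) (.split 1 (.chk false 0) (.split 0 (.chk false 0) (.chk false 0))))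
    (by decide +kernel)

theorem p0_3_4 : Ok par f3 ((Box3.unit.l 0).r 1) (selB 1 (selB 0 (selB 0 C0 127066206422820955190411754166134705070909771157716959013487377261832504927684564961189695) 31) 9) :=
  Ok.run hw hf3 ⟨317,25,25,1,10⟩ 59
    (.chk false 0)
    (by decide +kernel)

theorem p0_3_5 : Ok par f3 ((Box3.unit.l 0).l 1) (selB 0 (selB 0 C0 127066206422820955190411754166134705070909771157716959013487377261832504927684564961189695) 31) :=
  Ok.run hw hf3 ⟨317,25,25,1,10⟩ 59
    (.chk false 0)
    (by decide +kernel)

theorem p0_3_6 : Ok par f3 (Box3.unit.l 0) (selB 1 (selB 0 C0 127066206422820955190411754166134705070909771157716959013487377261832504927684564961189695) 31) :=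
  Ok.run hw hf3 ⟨279,25,25,1,10⟩ 59
    (.chk false 0)
    (by decide +kernel)

theorem p0_3_7 : Ok par f3 (Box3.unit.r 0) (selB 0 C0 127066206422820955190411754166134705070909771157716959013487377261832504927684564961189695) :=
  Ok.run hw hf3 ⟨279,25,25,1,10⟩ 59
    (.chk false 0)
    (by decide +kernel)

theorem p0_3_8 : Ok par f3 Box3.unit (selB 1 C0 127066206422820955190411754166134705070909771157716959013487377261832504927684564961189695) :=
  Ok.run hw hf3 ⟨241,25,25,1,10⟩ 59
    (.chk false 0)
    (by decide +kernel)

theorem p0_4_0 : Ok par f4 ((((((Box3.unit.l 1).r 0).l 1).l 0).l 1).l 0) (selB 0 (selB 0 (selB 0 C0 127066327839807649082762571294326593265165711529938506709219326957958083453617474556133375) 4839835493369361251778560) 208732161071105) :=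
  Ok.run hw hf4 ⟨511,25,25,1,10⟩ 59
    (.part 3245656291901439 (.chk false 0) (.split 1 (.split 0 (.part 524285 (.chk false 0) (.split 0 (.chk false 0) (.chk false 0))) (.part 249583 (.chk false 0) (.split 1 (.split 0 (.chk false 0) (.chk false 0)) (.chk false 0)))) (.chk false 0)))
    (by decide +kernel)

theorem p0_4_1 : Ok par f4 ((((((Box3.unit.l 1).r 0).l 1).l 0).l 1).r 0) (selB 0 (selB 0 (selB 0 C0 127066327839807649082762571294326593265165711529938506709219326957958083453617474556133375) 4839835493369361251778560) 208732161071105) :=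
  Ok.run hw hf4 ⟨566,25,25,1,10⟩ 59
    (.part 36028797017560075 (.chk false 0) (.split 1 (.split 0 (.part 4095 (.chk false 0) (.split 1 (.split 0 (.split 1 (.split 0 (.chk false 0) (.chk false 0)) (.chk false 0)) (.chk false 0)) (.chk false 0))) (.part 8113 (.chk false 0) (.split 1 (.split 0 (.chk false 0) (.part 14 (.chk false 0) (.split 1 (.split 0 (.chk false 0) (.chk false 0)) (.chk false 0)))) (.chk false 0)))) (.chk false 0)))
    (by decide +kernel)

theorem p0_4_2 : Ok par f4 (((((Box3.unit.l 1).r 0).l 1).l 0).r 1) (selB 0 (selB 0 (selB 0 C0 127066327839807649082762571294326593265165711529938506709219326957958083453617474556133375) 4839835493369361251778560) 208732161071105) :=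
  Ok.run hw hf4 ⟨385,25,25,1,10⟩ 59
    (.chk false 0)
    (by decide +kernel)

theorem p0_4_3 : Ok par f4 ((((Box3.unit.l 1).r 0).l 1).l 0) (selB 1 (selB 0 (selB 0 C0 127066327839807649082762571294326593265165711529938506709219326957958083453617474556133375) 4839835493369361251778560) 208732161071105) :=
  Ok.run hw hf4 ⟨364,25,25,1,10⟩ 59
    (.chk false 0)
    (by decide +kernel)

theorem p0_4_4 : Ok par f4 (((((((Box3.unit.l 1).r 0).l 1).r 0).l 1).l 1).l 0) (selB 0 (selB 0 (selB 0 C0 127066327839807649082762571294326593265165711529938506709219326957958083453617474556133375) 4839835493369361251778560) 302231454694993852082175) :=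
  Ok.run hw hf4 ⟨568,25,25,1,10⟩ 59
    (.part 2039630 (.chk false 0) (.split 0 (.part 107 (.chk false 0) (.split 1 (.split 0 (.part 1 (.chk false 0) (.split 1 (.split 0 (.chk false 0) (.chk false 0)) (.chk false 0))) (.chk false 0)) (.chk false 0))) (.chk false 0)))
    (by decide +kernel)


end Crest.Agent.R163.P8G
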