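import Crest.Agent.R163.Q3.D.P8G.S1
import Crest.Agent.R163.Q3.D.P8G.H

set_option autoImplicit false
set_option maxRecDepth 100000
set_option linter.all false
set_option Elab.async false

namespace Crest.Agent.R163.P8G

theorem p1_0_0 : Ok par f0 Box3.unit C1 :=
  Ok.run hw hf0 ⟨372,25,25,1,10⟩ 59
    (.part 2037035975860201684335280890008420365671783254955272967152775514409573891628796807078658043 (.chk false 0) (.split 0 (.part 79449 (.chk false 0) (.split 0 (.part 250 (.chk false 0) (.split 0 (.chk false 0) (.part 2 (.chk false 0) (.split 0 (.chk false 0) (.chk false 0))))) (.part 231 (.chk false 0) (.split 0 (.chk false 0) (.chk false 0))))) (.part 60399 (.chk false 0) (.split 0 (.chk false 0) (.part 10 (.chk false 0) (.split 1 (.part 1 (.chk false 0) (.split 0 (.chk false 0) (.chk false 0))) (.chk false 0)))))))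
    (by decide +kernel)

theorem p1_1_0 : Ok par f1 Box3.unit C1 :=
  Ok.run hw hf1 ⟨372,25,25,1,10⟩ 59
    (.part 2037035459364490726345145278710194637029962248485900306036132118502701159362276138573266935 (.chk false 0) (.split 0 (.part 4261390312 (.chk false 0) (.split 0 (.chk false 0) (.part 191 (.chk false 0) (.split 0 (.chk false 0) (.chk false 0))))) (.part 58687231 (.chk false 0) (.split 0 (.chk false 0) (.part 374 (.chk false 0) (.split 1 (.chk false 0) (.part 6 (.chk false 0) (.split 0 (.chk false 0) (.chk false 0)))))))))
    (by decide +kernel)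

theorem p1_2_0 : Ok par f2 Box3.unit C1 :=
  Ok.run hw hf2 ⟨308,25,25,1,10⟩ 59
    (.part 2037035976334022917911496419513922483808418536647100214304101624641383805343355395293315007 (.chk false 0) (.split 0 (.part 11 (.chk false 0) (.split 0 (.chk false 0) (.chk false 0))) (.chk false 0)))
    (by decide +kernel)

theorem p1_3_0 : Ok par f3 (((((Box3.unit.l 0).r 1).l 0).r 1).l 0) (selB 0 (selB 0 (selB 0 (selB 0 C1 634600508900046976561457431559969378168192605898414530059075389921498766564675477490093983) 1695444662270522546022119686701129795467041456128019) 42537892013546577707919332611958243328) 4464351715184652634060297514253224491658779) :=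
  Ok.run hw hf3 ⟨503,25,25,1,10⟩ 59
    (.part 2785415553066618322527 (.chk false 0) (.split 1 (.chk false 0) (.split 0 (.part 7167 (.chk false 0) (.split 1 (.chk false 0) (.split 0 (.chk false 0) (.chk false 0)))) (.part 4095 (.chk false 0) (.split 1 (.chk false 0) (.split 0 (.chk false 0) (.chk false 0)))))))
    (by decide +kernel)

theorem p1_3_1 : Ok par f3 (((((Box3.unit.l 0).r 1).l 0).r 1).r 0) (selB 0 (selB 0 (selB 0 (selB 0 C1 634600508900046976561457431559969378168192605898414530059075389921498766564675477490093983) 1695444662270522546022119686701129795467041456128019) 42537892013546577707919332611958243328) 4464351715184652634060297514253224491658779) :=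
  Ok.run hw hf3 ⟨547,25,25,1,10⟩ 59
    (.part 9142523407496455352303 (.chk false 0) (.split 1 (.chk false 0) (.part 1025 (.chk false 0) (.split 0 (.part 31231 (.chk false 0) (.split 1 (.chk false 0) (.part 2 (.chk false 0) (.split 0 (.split 1 (.chk false 0) (.split 0 (.chk false 0) (.chk false 0))) (.chk false 0))))) (.chk false 0)))))
    (by decide +kernel)

theorem p1_3_2 : Ok par f3 ((((Box3.unit.l 0).r 1).l 0).l 1) (selB 0 (selB 0 (selB 0 (selB 0 C1 634600508900046976561457431559969378168192605898414530059075389921498766564675477490093983) 1695444662270522546022119686701129795467041456128019) 42537892013546577707919332611958243328) 4464351715184652634060297514253224491658779) :=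
  Ok.run hw hf3 ⟨364,25,25,1,10⟩ 59
    (.chk false 0)
    (by decide +kernel)

theorem p1_3_3 : Ok par f3 (((Box3.unit.l 0).r 1).l 0) (selB 1 (selB 0 (selB 0 (selB 0 C1 634600508900046976561457431559969378168192605898414530059075389921498766564675477490093983) 1695444662270522546022119686701129795467041456128019) 42537892013546577707919332611958243328) 4464351715184652634060297514253224491658779) :=
  Ok.run hw hf3 ⟨346,25,25,1,10⟩ 59
    (.chk false 0)
    (by decide +kernel)

theorem p1_3_4 : Ok par f3 (((Box3.unit.l 0).r 1).r 0) (selB 0 (selB 0 (selB 0 C1 634600508900046976561457431559969378168192605898414530059075389921498766564675477490093983) 1695444662270522546022119686701129795467041456128019) 42537892013546577707919332611958243328) :=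
  Ok.run hw hf3 ⟨534,25,25,1,10⟩ 59
    (.part 5575186294156402404520480431030765070808039 (.chk false 0) (.split 1 (.chk false 0) (.part 33558528 (.chk false 0) (.split 0 (.part 33521375 (.chk false 0) (.split 1 (.chk false 0) (.split 0 (.chk false 0) (.chk false 0)))) (.part 33553387 (.chk false 0) (.split 1 (.chk false 0) (.split 0 (.part 5 (.chk false 0) (.split 1 (.chk false 0) (.split 0 (.chk false 0) (.split 1 (.chk false 0) (.split 0 (.chk false 0) (.chk false 0)))))) (.chk false 0))))))))
    (by decide +kernel)

theorem p1_3_5 : Ok par f3 ((Box3.unit.l 0).r 1) (selB 1 (selB 0 (selB 0 C1 634600508900046976561457431559969378168192605898414530059075389921498766564675477490093983) 1695444662270522546022119686701129795467041456128019) 42537892013546577707919332611958243328) :=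
  Ok.run hw hf3 ⟨317,25,25,1,10⟩ 59
    (.chk false 0)
    (by decide +kernel)

theorem p1_3_6 : Ok par f3 ((Box3.unit.l 0).l 1) (selB 0 (selB 0 C1 634600508900046976561457431559969378168192605898414530059075389921498766564675477490093983) 1695444662270522546022119686701129795467041456128019) :=
  Ok.run hw hf3 ⟨397,25,25,1,10⟩ 59
    (.part 44601447859169232736496089809205545876324351 (.chk false 0) (.split 0 (.part 2 (.chk false 0) (.split 0 (.chk false 0) (.split 1 (.chk false 0) (.chk false 0)))) (.chk false 0)))
    (by decide +kernel)

theorem p1_3_7 : Ok par f3 (Box3.unit.l 0) (selB 1 (selB 0 C1 634600508900046976561457431559969378168192605898414530059075389921498766564675477490093983) 1695444662270522546022119686701129795467041456128019) :=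
  Ok.run hw hf3 ⟨279,25,25,1,10⟩ 59
    (.chk false 0)
    (by decide +kernel)

theorem p1_3_8 : Ok par f3 (Box3.unit.r 0) (selB 0 C1 634600508900046976561457431559969378168192605898414530059075389921498766564675477490093983) :=
  Ok.run hw hf3 ⟨375,25,25,1,10⟩ 59
    (.part 2993155353253689176481146537402947552197751515119615 (.chk false 0) (.split 1 (.chk false 0) (.part 1 (.chk false 0) (.split 1 (.chk false 0) (.split 0 (.chk false 0) (.chk false 0))))))
    (by decide +kernel)

theorem p1_3_9 : Ok par f3 Box3.unit (selB 1 C1 634600508900046976561457431559969378168192605898414530059075389921498766564675477490093983) :=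
  Ok.run hw hf3 ⟨241,25,25,1,10⟩ 59
    (.chk false 0)
    (by decide +kernel)

theorem p1_4_0 : Ok par f4 ((((Box3.unit.l 1).r 0).l 1).l 0) (selB 1 (selB 0 (selB 0 C1 1654426181678587051014686966311697638050913897922128263571041078464188850532678899507629951) 447164271269307514678175513681402068092233) 2228231552524099508798444825527339) :=
  Ok.run hw hf4 ⟨364,25,25,1,10⟩ 59
    (.chk false 0)
    (by decide +kernel)

theorem p1_4_1 : Ok par f4 ((((Box3.unit.l 1).r 0).l 1).l 0) (selB 0 (selB 0 (selB 0 C1 1654426181678587051014686966311697638050913897922128263571041078464188850532678899507629951) 447164271269307514678175513681402068092233) 2228231552524099508798444825527339) :=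
  Ok.run hw hf4 ⟨511,25,25,1,10⟩ 59
    (.split 1 (.split 0 (.part 1440901718107200486 (.chk false 0) (.split 1 (.split 0 (.part 67076095 (.chk false 0) (.split 0 (.chk false 0) (.chk false 0))) (.part 33554431 (.chk false 0) (.split 1 (.split 0 (.chk false 0) (.chk false 0)) (.chk false 0)))) (.chk false 0))) (.part 4611686018427387871 (.chk false 0) (.split 1 (.split 0 (.chk false 0) (.chk false 0)) (.chk false 0)))) (.chk false 0))
    (by decide +kernel)

theorem p1_4_2 : Ok par f4 ((((Box3.unit.l 1).r 0).l 1).r 0) (selB 0 (selB 0 C1 1654426181678587051014686966311697638050913897922128263571041078464188850532678899507629951) 447164271269307514678175513681402068092233) :=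
  Ok.run hw hf4 ⟨525,25,25,1,10⟩ 59
    (.part 2575864665644412789984856129911799 (.chk false 0) (.split 1 (.split 0 (.part 5615 (.chk false 0) (.split 1 (.split 0 (.part 3 (.chk false 0) (.split 1 (.split 0 (.chk false 0) (.chk false 0)) (.chk false 0))) (.part 5 (.chk false 0) (.split 1 (.split 0 (.chk false 0) (.chk false 0)) (.chk false 0)))) (.chk false 0))) (.part 8189 (.chk false 0) (.split 1 (.split 0 (.split 1 (.split 0 (.chk false 0) (.chk false 0)) (.chk false 0)) (.chk false 0)) (.chk false 0)))) (.chk false 0)))
    (by decide +kernel)

theorem p1_4_3 : Ok par f4 (((Box3.unit.l 1).r 0).r 1) (selB 0 (selB 0 C1 1654426181678587051014686966311697638050913897922128263571041078464188850532678899507629951) 447164271269307514678175513681402068092233) :=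
  Ok.run hw hf4 ⟨334,25,25,1,10⟩ 59
    (.chk false 0)
    (by decide +kernel)

theorem p1_4_4 : Ok par f4 ((Box3.unit.l 1).r 0) (selB 1 (selB 0 C1 1654426181678587051014686966311697638050913897922128263571041078464188850532678899507629951) 447164271269307514678175513681402068092233) :=
  Ok.run hw hf4 ⟨317,25,25,1,10⟩ 59
    (.chk false 0)
    (by decide +kernel)

theorem p1_4_5 : Ok par f4 ((Box3.unit.l 1).l 0) (selB 0 C1 1654426181678587051014686966311697638050913897922128263571041078464188850532678899507629951) :=
  Ok.run hw hf4 ⟨483,25,25,1,10⟩ 59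
    (.part 44253039924106209511566559281746718734285823 (.chk false 0) (.split 0 (.chk false 0) (.part 3441 (.chk false 0) (.split 1 (.split 0 (.part 55 (.chk false 0) (.split 1 (.split 0 (.chk false 0) (.chk false 0)) (.chk false 0))) (.part 24 (.chk false 0) (.split 1 (.split 0 (.chk false 0) (.part 13 (.chk false 0) (.split 1 (.split 0 (.chk false 0) (.chk false 0)) (.chk false 0)))) (.chk false 0)))) (.chk false 0)))))
    (by decide +kernel)

theorem p1_4_6 : Ok par f4 (Box3.unit.r 1) (selB 0 C1 1654426181678587051014686966311697638050913897922128263571041078464188850532678899507629951) :=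
  Ok.run hw hf4 ⟨279,25,25,1,10⟩ 59
    (.chk false 0)
    (by decide +kernel)

theorem p1_4_7 : Ok par f4 Box3.unit (selB 1 C1 1654426181678587051014686966311697638050913897922128263571041078464188850532678899507629951) :=
  Ok.run hw hf4 ⟨241,25,25,1,10⟩ 59
    (.chk false 0)
    (by decide +kernel)

theorem p1_5_0 : Ok par f5 ((Box3.unit.l 1).l 1) (selB 0 (selB 0 C1 505277922940238497948898906201985720555275480723528072102414843951856966747559937426749552) 576873722091143614) :=
  Ok.run hw hf5 ⟨504,25,25,1,10⟩ 59
    (.part 100663312 (.chk false 0) (.split 0 (.part 259830029727 (.chk false 0) (.split 1 (.split 0 (.part 7236 (.chk false 0) (.split 1 (.split 0 (.part 221 (.chk false 0) (.split 1 (.split 0 (.chk false 0) (.chk false 0)) (.chk false 0))) (.chk false 0)) (.chk false 0))) (.part 8187 (.chk false 0) (.split 1 (.split 1 (.split 0 (.chk false 0) (.chk false 0)) (.chk false 0)) (.chk false 0)))) (.chk false 0))) (.part 240518168575 (.chk false 0) (.split 1 (.split 1 (.split 1 (.split 0 (.chk false 0) (.chk false 0)) (.chk false 0)) (.chk false 0)) (.chk false 0)))))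
    (by decide +kernel)

theorem p1_5_1 : Ok par f5 ((Box3.unit.l 1).r 1) (selB 0 (selB 0 C1 505277922940238497948898906201985720555275480723528072102414843951856966747559937426749552) 576873722091143614) :=
  Ok.run hw hf5 ⟨336,25,25,1,10⟩ 59
    (.part 2198922592255 (.chk false 0) (.split 0 (.chk false 0) (.chk false 0)))
    (by decide +kernel)

theorem p1_5_2 : Ok par f5 (Box3.unit.l 1) (selB 1 (selB 0 C1 505277922940238497948898906201985720555275480723528072102414843951856966747559937426749552) 576873722091143614) :=
  Ok.run hw hf5 ⟨280,25,25,1,10⟩ 59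
    (.chk false 0)
    (by decide +kernel)

theorem p1_5_3 : Ok par f5 (Box3.unit.r 1) (selB 1 (selB 0 C1 505277922940238497948898906201985720555275480723528072102414843951856966747559937426749552) 2305389494917856299) :=
  Ok.run hw hf5 ⟨280,25,25,1,10⟩ 59
    (.chk false 0)
    (by decide +kernel)

theorem p1_5_4 : Ok par f5 (Box3.unit.r 1) (selB 0 (selB 0 C1 505277922940238497948898906201985720555275480723528072102414843951856966747559937426749552) 2305389494917856299) :=
  Ok.run hw hf5 ⟨463,25,25,1,10⟩ 59
    (.split 0 (.part 1044477 (.chk false 0) (.split 0 (.chk false 0) (.split 1 (.part 1 (.chk false 0) (.split 0 (.chk false 0) (.split 1 (.chk false 0) (.chk false 0)))) (.chk false 0)))) (.part 160224 (.chk false 0) (.split 1 (.part 3327 (.chk false 0) (.split 0 (.chk false 0) (.part 1 (.chk false 0) (.split 0 (.chk false 0) (.split 1 (.chk false 0) (.chk false 0)))))) (.part 3837 (.chk false 0) (.split 0 (.part 2 (.chk false 0) (.split 1 (.chk false 0) (.split 0 (.split 1 (.split 0 (.chk false 0) (.chk false 0)) (.split 0 (.chk false 0) (.chk false 0))) (.chk false 0)))) (.chk false 0))))))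
    (by decide +kernel)

theorem p1_5_5 : Ok par f5 Box3.unit (selB 1 C1 505277922940238497948898906201985720555275480723528072102414843951856966747559937426749552) :=
  Ok.run hw hf5 ⟨242,25,25,1,10⟩ 59
    (.chk false 0)
    (by decide +kernel)

theorem p1_6_0 : Ok par f6 Box3.unit C1 :=
  Ok.run hw hf6 ⟨241,25,25,1,10⟩ 59
    (.chk false 0)
    (by decide +kernel)


end Crest.Agent.R163.P8G
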