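import Crest.Agent.R163.Q3.D.P8G.S2
import Crest.Agent.R163.Q3.D.P8G.H

set_option autoImplicit false
set_option maxRecDepth 100000
set_option linter.all false
set_option Elab.async false

namespace Crest.Agent.R163.P8G

theorem p2_0_0 : Ok par f0 Box3.unit (selB 1 C2 127314737608136921619127582068026185781414262235347745256365805440943569104960283463385086) :=
  Ok.run hw hf0 ⟨240,25,25,1,10⟩ 58
    (.chk false 0)
    (by decide +kernel)

theorem p2_0_1 : Ok par f0 Box3.unit (selB 0 C2 127314737608136921619127582068026185781414262235347745256365805440943569104960283463385086) :=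
  Ok.run hw hf0 ⟨445,25,25,1,10⟩ 58
    (.split 0 (.part 257002 (.chk false 0) (.split 0 (.chk false 0) (.chk false 0))) (.part 251253 (.chk false 0) (.split 0 (.chk false 0) (.part 51 (.chk false 0) (.split 1 (.part 1 (.chk false 0) (.split 0 (.split 1 (.split 0 (.split 1 (.chk false 0) (.chk false 0)) (.chk false 0)) (.chk false 0)) (.chk false 0))) (.part 2 (.chk false 0) (.split 0 (.chk false 0) (.split 1 (.split 0 (.chk false 0) (.chk false 0)) (.chk false 0)))))))))
    (by decide +kernel)

theorem p2_1_0 : Ok par f1 ((Box3.unit.r 0).l 0) (selB 0 (selB 0 C2 127314698843325511680042072826968823608725558506020079985771804385225320119593557955442523) 2338057849716832023469668281) :=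
  Ok.run hw hf1 ⟨361,25,25,1,10⟩ 58
    (.part 241892558110719 (.chk false 0) (.split 1 (.chk false 0) (.split 0 (.chk false 0) (.chk false 0))))
    (by decide +kernel)

theorem p2_1_1 : Ok par f1 ((Box3.unit.r 0).r 0) (selB 0 (selB 0 C2 127314698843325511680042072826968823608725558506020079985771804385225320119593557955442523) 2338057849716832023469668281) :=
  Ok.run hw hf1 ⟨463,25,25,1,10⟩ 58
    (.part 2233125035780480 (.chk false 0) (.split 1 (.part 16776703 (.chk false 0) (.split 0 (.split 0 (.chk false 0) (.split 1 (.chk false 0) (.chk false 0))) (.split 0 (.split 1 (.chk false 0) (.split 0 (.split 1 (.chk false 0) (.chk false 0)) (.chk false 0))) (.chk false 0)))) (.part 32 (.chk false 0) (.split 0 (.part 8355839 (.chk false 0) (.split 1 (.chk false 0) (.split 0 (.chk false 0) (.chk false 0)))) (.part 5170047 (.chk false 0) (.split 1 (.chk false 0) (.part 80 (.chk false 0) (.split 0 (.chk false 0) (.chk false 0)))))))))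
    (by decide +kernel)

theorem p2_1_2 : Ok par f1 (Box3.unit.r 0) (selB 1 (selB 0 C2 127314698843325511680042072826968823608725558506020079985771804385225320119593557955442523) 2338057849716832023469668281) :=
  Ok.run hw hf1 ⟨278,25,25,1,10⟩ 58
    (.chk false 0)
    (by decide +kernel)

theorem p2_1_3 : Ok par f1 (Box3.unit.l 0) (selB 0 C2 127314698843325511680042072826968823608725558506020079985771804385225320119593557955442523) :=
  Ok.run hw hf1 ⟨401,25,25,1,10⟩ 58
    (.part 308172191939107307355373567 (.chk false 0) (.split 0 (.chk false 0) (.part 23 (.chk false 0) (.split 0 (.part 5 (.chk false 0) (.split 1 (.chk false 0) (.split 0 (.chk false 0) (.chk false 0)))) (.part 6 (.chk false 0) (.split 0 (.chk false 0) (.split 1 (.split 0 (.chk false 0) (.chk false 0)) (.chk false 0))))))))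
    (by decide +kernel)

theorem p2_1_4 : Ok par f1 Box3.unit (selB 1 C2 127314698843325511680042072826968823608725558506020079985771804385225320119593557955442523) :=
  Ok.run hw hf1 ⟨240,25,25,1,10⟩ 58
    (.chk false 0)
    (by decide +kernel)

theorem p2_2_0 : Ok par f2 Box3.unit C2 :=
  Ok.run hw hf2 ⟨278,25,25,1,10⟩ 58
    (.part 127314748520905380391777855525586135065716774604121015664758778084648831232956744322777087 (.chk false 0) (.split 0 (.chk false 0) (.chk false 0)))
    (by decide +kernel)

theorem p2_3_0 : Ok par f3 ((Box3.unit.l 0).l 1) (selB 0 (selB 0 C2 127266181798599737165004868977915522569707262003299161444256846548904057447947268369221807) 597564602214353534451721) :=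
  Ok.run hw hf3 ⟨316,25,25,1,10⟩ 58
    (.chk false 0)
    (by decide +kernel)

theorem p2_3_1 : Ok par f3 ((Box3.unit.l 0).r 1) (selB 0 (selB 0 C2 127266181798599737165004868977915522569707262003299161444256846548904057447947268369221807) 597564602214353534451721) :=
  Ok.run hw hf3 ⟨502,25,25,1,10⟩ 58
    (.part 144116287587483648 (.chk false 0) (.split 0 (.part 162626505470628255 (.chk false 0) (.split 1 (.chk false 0) (.split 0 (.part 49807342 (.chk false 0) (.split 1 (.chk false 0) (.split 0 (.part 15 (.chk false 0) (.split 1 (.chk false 0) (.split 0 (.chk false 0) (.chk false 0)))) (.chk false 0)))) (.part 134217471 (.chk false 0) (.split 1 (.chk false 0) (.split 0 (.chk false 0) (.chk false 0))))))) (.chk false 0)))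
    (by decide +kernel)

theorem p2_3_2 : Ok par f3 (Box3.unit.l 0) (selB 1 (selB 0 C2 127266181798599737165004868977915522569707262003299161444256846548904057447947268369221807) 597564602214353534451721) :=
  Ok.run hw hf3 ⟨278,25,25,1,10⟩ 58
    (.chk false 0)
    (by decide +kernel)

theorem p2_3_3 : Ok par f3 (Box3.unit.r 0) (selB 0 C2 127266181798599737165004868977915522569707262003299161444256846548904057447947268369221807) :=
  Ok.run hw hf3 ⟨374,25,25,1,10⟩ 58
    (.part 302231454903657293676543 (.chk false 0) (.split 1 (.chk false 0) (.split 1 (.chk false 0) (.split 0 (.chk false 0) (.chk false 0)))))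
    (by decide +kernel)

theorem p2_3_4 : Ok par f3 Box3.unit (selB 1 C2 127266181798599737165004868977915522569707262003299161444256846548904057447947268369221807) :=
  Ok.run hw hf3 ⟨240,25,25,1,10⟩ 58
    (.chk false 0)
    (by decide +kernel)

theorem p2_4_0 : Ok par f4 (((Box3.unit.l 1).r 0).l 1) (selB 0 (selB 0 (selB 0 C2 5346178244981840175603588409468281263872513281945870044253391731396321639378910289673878) 953273251371628509925520810442752) 10138970403535376563309067834661) :=
  Ok.run hw hf4 ⟨502,25,25,1,10⟩ 58
    (.part 52776558133248 (.chk false 0) (.split 0 (.part 17590037643255 (.chk false 0) (.split 1 (.split 0 (.part 15 (.chk false 0) (.split 1 (.split 0 (.chk false 0) (.chk false 0)) (.chk false 0))) (.part 18 (.chk false 0) (.split 1 (.split 0 (.chk false 0) (.chk false 0)) (.chk false 0)))) (.chk false 0))) (.part 16930492645195 (.chk false 0) (.split 1 (.split 1 (.split 0 (.chk false 0) (.part 267 (.chk false 0) (.split 1 (.split 0 (.chk false 0) (.chk false 0)) (.chk false 0)))) (.chk false 0)) (.chk false 0)))))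
    (by decide +kernel)

theorem p2_4_1 : Ok par f4 (((Box3.unit.l 1).r 0).r 1) (selB 0 (selB 0 (selB 0 C2 5346178244981840175603588409468281263872513281945870044253391731396321639378910289673878) 953273251371628509925520810442752) 10138970403535376563309067834661) :=
  Ok.run hw hf4 ⟨333,25,25,1,10⟩ 58
    (.chk false 0)
    (by decide +kernel)

theorem p2_4_2 : Ok par f4 ((Box3.unit.l 1).r 0) (selB 1 (selB 0 (selB 0 C2 5346178244981840175603588409468281263872513281945870044253391731396321639378910289673878) 953273251371628509925520810442752) 10138970403535376563309067834661) :=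
  Ok.run hw hf4 ⟨316,25,25,1,10⟩ 58
    (.chk false 0)
    (by decide +kernel)

theorem p2_4_3 : Ok par f4 ((Box3.unit.l 1).l 0) (selB 0 (selB 0 C2 5346178244981840175603588409468281263872513281945870044253391731396321639378910289673878) 953273251371628509925520810442752) :=
  Ok.run hw hf4 ⟨482,25,25,1,10⟩ 58
    (.part 32324855774210826459181810711515 (.chk false 0) (.split 0 (.chk false 0) (.part 3844 (.chk false 0) (.split 1 (.split 0 (.chk false 0) (.part 445 (.chk false 0) (.split 1 (.split 0 (.chk false 0) (.part 2 (.chk false 0) (.split 1 (.split 0 (.chk false 0) (.chk false 0)) (.chk false 0)))) (.chk false 0)))) (.chk false 0)))))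
    (by decide +kernel)

theorem p2_4_4 : Ok par f4 (Box3.unit.l 1) (selB 1 (selB 0 C2 5346178244981840175603588409468281263872513281945870044253391731396321639378910289673878) 953273251371628509925520810442752) :=
  Ok.run hw hf4 ⟨278,25,25,1,10⟩ 58
    (.chk false 0)
    (by decide +kernel)

theorem p2_4_5 : Ok par f4 (Box3.unit.r 1) (selB 0 C2 5346178244981840175603588409468281263872513281945870044253391731396321639378910289673878) :=
  Ok.run hw hf4 ⟨278,25,25,1,10⟩ 58
    (.chk false 0)
    (by decide +kernel)

theorem p2_4_6 : Ok par f4 Box3.unit (selB 1 C2 5346178244981840175603588409468281263872513281945870044253391731396321639378910289673878) :=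
  Ok.run hw hf4 ⟨240,25,25,1,10⟩ 58
    (.chk false 0)
    (by decide +kernel)

theorem p2_5_0 : Ok par f5 ((((Box3.unit.l 1).l 1).l 0).l 1) (selB 0 (selB 0 (selB 0 (selB 0 C2 61133480273647594346296029097124499657439312101420923338101987491724940725519035122555) 172700084262838760619307630748708296695218176) 19266962413542440960) 15523172092739965) :=
  Ok.run hw hf5 ⟨523,25,25,1,10⟩ 58
    (.part 268435456 (.chk false 0) (.split 1 (.split 0 (.part 233824255 (.chk false 0) (.split 0 (.part 5 (.chk false 0) (.split 1 (.split 0 (.chk false 0) (.chk false 0)) (.chk false 0))) (.part 3 (.chk false 0) (.split 1 (.split 1 (.split 0 (.chk false 0) (.chk false 0)) (.chk false 0)) (.chk false 0))))) (.part 268431167 (.chk false 0) (.split 1 (.split 0 (.part 3 (.chk false 0) (.split 1 (.split 0 (.chk false 0) (.chk false 0)) (.chk false 0))) (.part 5 (.chk false 0) (.split 1 (.split 0 (.chk false 0) (.chk false 0)) (.chk false 0)))) (.chk false 0)))) (.chk false 0)))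
    (by decide +kernel)

theorem p2_5_1 : Ok par f5 ((((Box3.unit.l 1).l 1).l 0).r 1) (selB 0 (selB 0 (selB 0 (selB 0 C2 61133480273647594346296029097124499657439312101420923338101987491724940725519035122555) 172700084262838760619307630748708296695218176) 19266962413542440960) 15523172092739965) :=
  Ok.run hw hf5 ⟨368,25,25,1,10⟩ 58
    (.chk false 0)
    (by decide +kernel)

theorem p2_5_2 : Ok par f5 (((Box3.unit.l 1).l 1).l 0) (selB 1 (selB 0 (selB 0 (selB 0 C2 61133480273647594346296029097124499657439312101420923338101987491724940725519035122555) 172700084262838760619307630748708296695218176) 19266962413542440960) 15523172092739965) :=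
  Ok.run hw hf5 ⟨346,25,25,1,10⟩ 58
    (.chk false 0)
    (by decide +kernel)

theorem p2_5_3 : Ok par f5 (((Box3.unit.l 1).l 1).r 0) (selB 0 (selB 0 (selB 0 C2 61133480273647594346296029097124499657439312101420923338101987491724940725519035122555) 172700084262838760619307630748708296695218176) 19266962413542440960) :=
  Ok.run hw hf5 ⟨543,25,25,1,10⟩ 58
    (.part 281474976710655 (.chk false 0) (.split 1 (.part 57 (.chk false 0) (.split 1 (.chk false 0) (.chk false 0))) (.part 46 (.chk false 0) (.split 1 (.chk false 0) (.part 1 (.chk false 0) (.split 1 (.split 0 (.chk false 0) (.split 1 (.chk false 0) (.split 1 (.split 0 (.chk false 0) (.split 1 (.chk false 0) (.chk false 0))) (.chk false 0)))) (.chk false 0)))))))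
    (by decide +kernel)

theorem p2_5_4 : Ok par f5 ((Box3.unit.l 1).l 1) (selB 1 (selB 0 (selB 0 C2 61133480273647594346296029097124499657439312101420923338101987491724940725519035122555) 172700084262838760619307630748708296695218176) 19266962413542440960) :=
  Ok.run hw hf5 ⟨308,25,25,1,10⟩ 58
    (.chk false 0)
    (by decide +kernel)

theorem p2_5_5 : Ok par f5 ((Box3.unit.l 1).r 1) (selB 0 (selB 0 C2 61133480273647594346296029097124499657439312101420923338101987491724940725519035122555) 172700084262838760619307630748708296695218176) :=
  Ok.run hw hf5 ⟨450,25,25,1,10⟩ 58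
    (.part 18291932690489802751 (.chk false 0) (.split 0 (.part 30 (.chk false 0) (.split 1 (.part 2 (.chk false 0) (.split 0 (.chk false 0) (.part 1 (.chk false 0) (.split 1 (.chk false 0) (.split 1 (.chk false 0) (.split 1 (.chk false 0) (.chk false 0))))))) (.part 6 (.chk false 0) (.split 0 (.chk false 0) (.chk false 0))))) (.part 63 (.chk false 0) (.split 1 (.split 1 (.chk false 0) (.chk false 0)) (.chk false 0)))))
    (by decide +kernel)

theorem p2_5_6 : Ok par f5 (Box3.unit.l 1) (selB 1 (selB 0 C2 61133480273647594346296029097124499657439312101420923338101987491724940725519035122555) 172700084262838760619307630748708296695218176) :=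
  Ok.run hw hf5 ⟨279,25,25,1,10⟩ 58
    (.chk false 0)
    (by decide +kernel)

theorem p2_5_7 : Ok par f5 (((((Box3.unit.r 1).r 1).l 0).r 1).l 0) (selB 0 (selB 0 (selB 0 (selB 0 (selB 0 C2 61133480273647594346296029097124499657439312101420923338101987491724940725519035122555) 365286903278631309550695045565164661584034791422) 27856002677770566730772497490) 302641945755590164223) 7499418634) :=
  Ok.run hw hf5 ⟨402,25,25,1,10⟩ 58
    (.chk false 0)
    (by decide +kernel)

theorem p2_5_8 : Ok par f5 (((((Box3.unit.r 1).r 1).l 0).r 1).r 0) (selB 0 (selB 0 (selB 0 (selB 0 (selB 0 C2 61133480273647594346296029097124499657439312101420923338101987491724940725519035122555) 365286903278631309550695045565164661584034791422) 27856002677770566730772497490) 302641945755590164223) 7499418634) :=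
  Ok.run hw hf5 ⟨589,25,25,1,10⟩ 58
    (.part 1139367 (.chk false 0) (.split 1 (.part 191 (.chk false 0) (.split 0 (.part 3 (.chk false 0) (.split 1 (.chk false 0) (.chk false 0))) (.chk false 0))) (.part 1804 (.chk false 0) (.split 0 (.part 59 (.chk false 0) (.split 1 (.chk false 0) (.split 0 (.split 1 (.chk false 0) (.split 0 (.chk false 0) (.split 1 (.split 0 (.chk false 0) (.chk false 0)) (.chk false 0)))) (.split 1 (.chk false 0) (.chk false 0))))) (.part 47 (.chk false 0) (.split 1 (.split 0 (.split 1 (.split 0 (.chk false 0) (.chk false 0)) (.chk false 0)) (.chk false 0)) (.chk false 0)))))))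
    (by decide +kernel)

theorem p2_5_9 : Ok par f5 ((((Box3.unit.r 1).r 1).l 0).r 1) (selB 1 (selB 0 (selB 0 (selB 0 (selB 0 C2 61133480273647594346296029097124499657439312101420923338101987491724940725519035122555) 365286903278631309550695045565164661584034791422) 27856002677770566730772497490) 302641945755590164223) 7499418634) :=
  Ok.run hw hf5 ⟨373,25,25,1,10⟩ 58
    (.chk false 0)
    (by decide +kernel)

theorem p2_5_10 : Ok par f5 ((((Box3.unit.r 1).r 1).l 0).l 1) (selB 0 (selB 0 (selB 0 (selB 0 C2 61133480273647594346296029097124499657439312101420923338101987491724940725519035122555) 365286903278631309550695045565164661584034791422) 27856002677770566730772497490) 302641945755590164223) :=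
  Ok.run hw hf5 ⟨435,25,25,1,10⟩ 58
    (.part 1142685695 (.chk false 0) (.split 0 (.chk false 0) (.part 1631 (.chk false 0) (.split 1 (.part 3 (.chk false 0) (.split 0 (.chk false 0) (.chk false 0))) (.chk false 0)))))
    (by decide +kernel)


end Crest.Agent.R163.P8G
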