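import Crest.Agent.R163.Q3.D.P8G.S3
import Crest.Agent.R163.Q3.D.P8G.H

set_option autoImplicit false
set_option maxRecDepth 100000
set_option linter.all false
set_option Elab.async false

namespace Crest.Agent.R163.P8G

theorem p3_0_0 : Ok par f0 Box3.unit C3 :=
  Ok.run hw hf0 ⟨276,25,25,1,10⟩ 56
    (.part 3037 (.chk false 0) (.split 0 (.chk false 0) (.chk false 0)))
    (by decide +kernel)

theorem p3_1_0 : Ok par f1 Box3.unit C3 :=
  Ok.run hw hf1 ⟨390,25,25,1,10⟩ 56
    (.part 2111 (.chk false 0) (.split 0 (.split 0 (.part 24 (.chk false 0) (.split 0 (.part 2 (.chk false 0) (.split 0 (.chk false 0) (.chk false 0))) (.part 5 (.chk false 0) (.split 1 (.chk false 0) (.split 0 (.chk false 0) (.chk false 0)))))) (.part 7 (.chk false 0) (.split 0 (.split 0 (.chk false 0) (.chk false 0)) (.chk false 0)))) (.chk false 0)))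
    (by decide +kernel)

theorem p3_2_0 : Ok par f2 Box3.unit C3 :=
  Ok.run hw hf2 ⟨238,25,25,1,10⟩ 56
    (.chk false 0)
    (by decide +kernel)

theorem p3_3_0 : Ok par f3 Box3.unit C3 :=
  Ok.run hw hf3 ⟨238,25,25,1,10⟩ 56
    (.chk false 0)
    (by decide +kernel)

theorem p3_4_0 : Ok par f4 Box3.unit C3 :=
  Ok.run hw hf4 ⟨388,25,25,1,10⟩ 56
    (.part 2110 (.chk false 0) (.split 1 (.part 1 (.chk false 0) (.split 0 (.part 25 (.chk false 0) (.split 0 (.chk false 0) (.part 1 (.chk false 0) (.split 1 (.split 0 (.chk false 0) (.chk false 0)) (.chk false 0))))) (.part 7 (.chk false 0) (.split 1 (.split 0 (.chk false 0) (.chk false 0)) (.chk false 0))))) (.chk false 0)))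
    (by decide +kernel)

theorem p3_5_0 : Ok par f5 (Box3.unit.l 1) (selB 0 C3 2048) :=
  Ok.run hw hf5 ⟨428,25,25,1,10⟩ 56
    (.part 992 (.chk false 0) (.split 1 (.chk false 0) (.part 2 (.chk false 0) (.split 1 (.part 17 (.chk false 0) (.split 0 (.chk false 0) (.part 2 (.chk false 0) (.split 1 (.part 1 (.chk false 0) (.split 0 (.split 1 (.chk false 0) (.chk false 0)) (.chk false 0))) (.chk false 0))))) (.part 10 (.chk false 0) (.split 0 (.split 0 (.chk false 0) (.part 3 (.chk false 0) (.split 1 (.chk false 0) (.split 1 (.chk false 0) (.chk false 0))))) (.part 3 (.chk false 0) (.split 1 (.chk false 0) (.chk false 0)))))))))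
    (by decide +kernel)

theorem p3_5_1 : Ok par f5 (Box3.unit.r 1) (selB 0 C3 2048) :=
  Ok.run hw hf5 ⟨455,25,25,1,10⟩ 56
    (.part 1055 (.chk false 0) (.split 1 (.split 0 (.split 1 (.part 1 (.chk false 0) (.split 0 (.part 11 (.chk false 0) (.split 1 (.chk false 0) (.split 0 (.chk false 0) (.split 1 (.chk false 0) (.chk false 0))))) (.part 2 (.chk false 0) (.split 1 (.chk false 0) (.chk false 0))))) (.part 27 (.chk false 0) (.split 0 (.chk false 0) (.chk false 0)))) (.part 15 (.chk false 0) (.split 1 (.split 1 (.chk false 0) (.chk false 0)) (.chk false 0)))) (.chk false 0)))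
    (by decide +kernel)

theorem p3_5_2 : Ok par f5 Box3.unit (selB 1 C3 2048) :=
  Ok.run hw hf5 ⟨239,25,25,1,10⟩ 56
    (.chk false 0)
    (by decide +kernel)

theorem p3_6_0 : Ok par f6 Box3.unit C3 :=
  Ok.run hw hf6 ⟨238,25,25,1,10⟩ 56
    (.chk false 0)
    (by decide +kernel)

theorem p3_7_0 : Ok par f7 Box3.unit C3 :=
  Ok.run hw hf7 ⟨388,25,25,1,10⟩ 56
    (.part 2048 (.chk false 0) (.split 0 (.chk false 0) (.part 6 (.chk false 0) (.split 1 (.chk false 0) (.split 0 (.part 171 (.chk false 0) (.split 1 (.chk false 0) (.split 0 (.chk false 0) (.chk false 0)))) (.chk false 0))))))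
    (by decide +kernel)

theorem p3_8_0 : Ok par f8 Box3.unit C3 :=
  Ok.run hw hf8 ⟨239,25,25,1,10⟩ 56
    (.chk false 0)
    (by decide +kernel)

theorem p3_9_0 : Ok par f9 Box3.unit C3 :=
  Ok.run hw hf9 ⟨239,25,25,1,10⟩ 56
    (.chk false 0)
    (by decide +kernel)


end Crest.Agent.R163.P8G
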